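import Vale.Agent.P076.Bdl.All

/-!
# Nice frequency data, energies, translations in space and time
-/

open MeasureTheory Complex FourierTransform Filter Topology Set
open scoped ENNReal NNReal

namespace Vale.Agent.P076.H791

variable {n : ℕ}

/-- the weighted energy -/
noncomputable def En (w : E n → ℝ≥0∞) (G : E n → ℂ) : ℝ≥0∞ := ∫⁻ η, w η * ‖G η‖ₑ ^ 2

/-- nice frequency data -/
structure Nice (w : E n → ℝ≥0∞) (G : E n → ℂ) : Prop where
  meas : Measurable G
  bdd : ∃ b : ℝ, ∀ η, ‖G η‖ ≤ b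
  supp : ∃ R : ℝ, ∀ η, G η ≠ 0 → ‖η‖ ≤ R
  en : En w G < ⊤

variable {w : E n → ℝ≥0∞} {G H : E n → ℂ}

lemma Nice.integrable (h : Nice w G) : Integrable G := by
  obtain ⟨R, hR⟩ := h.supp
  exact integrable_of_bdd h.meas h.bdd hR

lemma Nice.memLp (h : Nice w G) : MemLp G 2 volume := by
  obtain ⟨R, hR⟩ := h.supp
  exact memLp_of_bdd h.meas h.bdd hR 2

lemma nice_zero : Nice w (0 : E n → ℂ) where
  meas := measurable_zero
  bdd := ⟨0, fun η => by simp⟩
  supp := ⟨0, fun η h => absurd rfl h⟩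
  en := by simp [En]

lemma sq_enorm_add_le (a b : ℂ) : ‖a + b‖ₑ ^ 2 ≤ 2 * (‖a‖ₑ ^ 2 + ‖b‖ₑ ^ 2) := by
  have h1 : ‖a + b‖ₑ ≤ ‖a‖ₑ + ‖b‖ₑ := enorm_add_le _ _
  refine (pow_le_pow_left' h1 2).trans ?_
  have := ENNReal.rpow_add_le_mul_rpow_add_rpow ‖a‖ₑ ‖b‖ₑ (p := 2) (by norm_num)
  norm_num at this
  exact this

lemma En_add_le (hw : Measurable w) (hG : Measurable G) : En w (G + H) ≤ 2 * (En w G + En w H) := by
  have h1 := lintegral_add_left (μ := volume) (f := fun η => w η * ‖G η‖ₑ ^ 2)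
    (hw.mul (hG.enorm.pow_const 2)) (fun η => w η * ‖H η‖ₑ ^ 2)
  have h2 := lintegral_const_mul' (μ := volume) 2
    (fun η => w η * ‖G η‖ₑ ^ 2 + w η * ‖H η‖ₑ ^ 2) (by norm_num)
  unfold En
  rw [← h1, ← h2]
  refine lintegral_mono fun η => ?_
  calc w η * ‖(G + H) η‖ₑ ^ 2 ≤ w η * (2 * (‖G η‖ₑ ^ 2 + ‖H η‖ₑ ^ 2)) := by
        gcongr
        exact sq_enorm_add_le _ _
    _ = 2 * (w η * ‖G η‖ₑ ^ 2 + w η * ‖H η‖ₑ ^ 2) := by ring

lemma En_const_mul (c : ℂ) : En w (fun η => c * G η) = ‖c‖ₑ ^ 2 * En w G := by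
  unfold En
  rw [← lintegral_const_mul' _ _ (by finiteness)]
  refine lintegral_congr fun η => ?_
  rw [enorm_mul]
  ring

lemma En_congr_norm (h : ∀ η, ‖G η‖ = ‖H η‖) : En w G = En w H := by
  unfold En
  refine lintegral_congr fun η => ?_
  rw [← ofReal_norm, ← ofReal_norm, h η]

lemma Nice.add (hw : Measurable w) (h1 : Nice w G) (h2 : Nice w H) : Nice w (G + H) where
  meas := h1.meas.add h2.meas
  bdd := by
    obtain ⟨b, hb⟩ := h1.bdd
    obtain ⟨b', hb'⟩ := h2.bdd
    exact ⟨b + b', fun η => (norm_add_le _ _).trans (add_le_add (hb η) (hb' η))⟩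
  supp := by
    obtain ⟨R, hR⟩ := h1.supp
    obtain ⟨R', hR'⟩ := h2.supp
    refine ⟨max R R', fun η h => ?_⟩
    by_cases h0 : G η = 0
    · have : H η ≠ 0 := fun h' => h (by simp [h0, h'])
      exact (hR' η this).trans (le_max_right _ _)
    · exact (hR η h0).trans (le_max_left _ _)
  en := by
    refine (En_add_le hw h1.meas).trans_lt ?_
    have := h1.en
    have := h2.en
    finiteness

lemma Nice.const_mul (h : Nice w G) (c : ℂ) : Nice w (fun η => c * G η) where
  meas := h.meas.const_mul c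
  bdd := by
    obtain ⟨b, hb⟩ := h.bdd
    refine ⟨‖c‖ * b, fun η => ?_⟩
    rw [norm_mul]
    exact mul_le_mul_of_nonneg_left (hb η) (norm_nonneg _)
  supp := by
    obtain ⟨R, hR⟩ := h.supp
    exact ⟨R, fun η h => hR η (right_ne_zero_of_mul h)⟩
  en := by
    rw [En_const_mul]
    have := h.en
    finiteness

lemma Nice.congr_norm (h : Nice w G) (hH : Measurable H) (he : ∀ η, ‖H η‖ = ‖G η‖) : Nice w H where
  meas := hH
  bdd := by
    obtain ⟨b, hb⟩ := h.bdd
    exact ⟨b, fun η => (he η).le.trans (hb η)⟩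
  supp := by
    obtain ⟨R, hR⟩ := h.supp
    refine ⟨R, fun η h => hR η fun h' => h ?_⟩
    rw [← norm_eq_zero, he η, h', norm_zero]
  en := by
    rw [En_congr_norm he]
    exact h.en

/-! ### shifts -/

/-- shift in time -/
noncomputable def sft (τ : ℝ) (G : E n → ℂ) (η : E n) : ℂ :=
  cexp (((-(2 * Real.pi * τ * ‖η‖ ^ 2) : ℝ) : ℂ) * I) * G η

/-- translation in space -/
noncomputable def trl (y : E n) (G : E n → ℂ) (η : E n) : ℂ :=
  cexp (((-(2 * Real.pi * inner ℝ y η) : ℝ) : ℂ) * I) * G η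

lemma norm_sft (τ : ℝ) (G : E n → ℂ) (η : E n) : ‖sft τ G η‖ = ‖G η‖ := by
  rw [sft, norm_mul, Complex.norm_exp_ofReal_mul_I, one_mul]

lemma norm_trl (y : E n) (G : E n → ℂ) (η : E n) : ‖trl y G η‖ = ‖G η‖ := by
  rw [trl, norm_mul, Complex.norm_exp_ofReal_mul_I, one_mul]

lemma Nice.sft (h : Nice w G) (τ : ℝ) : Nice w (sft τ G) :=
  h.congr_norm (by
    have := h.meas
    unfold H791.sft
    fun_prop) (norm_sft τ G)

lemma Nice.trl (h : Nice w G) (y : E n) : Nice w (trl y G) :=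
  h.congr_norm (by
    have := h.meas
    unfold H791.trl
    fun_prop) (norm_trl y G)

lemma En_sft (τ : ℝ) : En w (sft τ G) = En w G := En_congr_norm (norm_sft τ G)

lemma En_trl (y : E n) : En w (trl y G) = En w G := En_congr_norm (norm_trl y G)

lemma evo_sft (τ : ℝ) (G : E n → ℂ) (x : E n) (s a : ℝ) :
    evo (sft τ G) x s a = evo G x (s + τ) a := by
  rw [evo_eq, evo_eq]
  refine integral_congr_ae (Eventually.of_forall fun η => ?_)
  simp only [ph, sft]
  rw [← mul_assoc, ← Complex.exp_add]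
  congr 2
  push_cast
  ring

lemma evo_trl (y : E n) (G : E n → ℂ) (x : E n) (s a : ℝ) :
    evo (trl y G) x s a = evo G (x - y) s a := by
  rw [evo_eq, evo_eq]
  refine integral_congr_ae (Eventually.of_forall fun η => ?_)
  simp only [ph, trl]
  rw [← mul_assoc, ← Complex.exp_add, inner_sub_left]
  congr 2
  push_cast
  ring

lemma evo_add' (hG : Integrable G) (hH : Integrable H) (x : E n) (s : ℝ) {a : ℝ} (ha : 0 ≤ a) :
    evo (G + H) x s a = evo G x s a + evo H x s a := by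
  rw [evo_eq, evo_eq, evo_eq, ← integral_add (integrable_ph_mul hG x s ha)
    (integrable_ph_mul hH x s ha)]
  refine integral_congr_ae (Eventually.of_forall fun η => ?_)
  simp only [Pi.add_apply]
  ring

lemma evo_const_mul' (c : ℂ) (G : E n → ℂ) (x : E n) (s a : ℝ) :
    evo (fun η => c * G η) x s a = c * evo G x s a := by
  rw [evo_eq, evo_eq, ← integral_const_mul]
  refine integral_congr_ae (Eventually.of_forall fun η => ?_)
  simp only
  ring

lemma evo_zero_fun (x : E n) (s a : ℝ) : evo (0 : E n → ℂ) x s a = 0 := by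
  rw [evo_eq]
  simp

/-! ### continuity -/

lemma continuous_evo (hG : Integrable G) : Continuous fun p : E n × ℝ => evo G p.1 p.2 0 := by
  simp_rw [evo_eq]
  refine continuous_of_dominated (bound := fun η => ‖G η‖) ?_ ?_ hG.norm ?_
  · exact fun p => (continuous_ph p.1 p.2 0).aestronglyMeasurable.mul hG.aestronglyMeasurable
  · refine fun p => Eventually.of_forall fun η => ?_
    rw [norm_mul]
    exact mul_le_of_le_one_left (norm_nonneg _) (norm_ph_le p.1 p.2 le_rfl η)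
  · refine Eventually.of_forall fun η => ?_
    unfold ph
    fun_prop

lemma continuous_evo_x (hG : Integrable G) (s : ℝ) : Continuous fun x : E n => evo G x s 0 := by
  have h2 : Continuous fun x : E n => ((x, s) : E n × ℝ) := by fun_prop
  have h3 := Continuous.comp (continuous_evo hG) h2
  simpa only [Function.comp_def] using h3

lemma continuous_evo_s (hG : Integrable G) (x : E n) : Continuous fun s : ℝ => evo G x s 0 := by
  have h2 : Continuous fun s : ℝ => ((x, s) : E n × ℝ) := by fun_prop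
  have h3 := Continuous.comp (continuous_evo hG) h2
  simpa only [Function.comp_def] using h3

/-! ### Plancherel -/

lemma lintegral_evo_zero (h1 : Integrable G) (h2 : MemLp G 2 volume) :
    ∫⁻ x, ‖evo G x 0 0‖ₑ ^ 2 = ∫⁻ η, ‖G η‖ₑ ^ 2 := by
  have e1 : eLpNorm (fun x : E n => evo G x 0 0) 2 volume = eLpNorm G 2 volume := by
    rw [← eLpNorm_congr_ae (evo_zero_ae_eq h1 h2), ← Lp.enorm_def]
    have h0 : ‖(𝓕⁻ (h2.toLp G) : Lp ℂ 2 (volume : Measure (E n)))‖ = ‖h2.toLp G‖ :=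
      (Lp.fourierTransformₗᵢ (E n) ℂ).symm.norm_map _
    rw [← ofReal_norm, h0, ofReal_norm, Lp.enorm_def, eLpNorm_congr_ae h2.coeFn_toLp]
  have key : ∀ f : E n → ℂ, eLpNorm f 2 volume ^ 2 = ∫⁻ x, ‖f x‖ₑ ^ 2 := by
    intro f
    rw [eLpNorm_eq_lintegral_rpow_enorm_toReal (by norm_num) (by norm_num)]
    simp only [ENNReal.toReal_ofNat, ENNReal.rpow_ofNat, one_div]
    rw [← ENNReal.rpow_natCast, ← ENNReal.rpow_mul]
    norm_num
  rw [← key, ← key, e1]

lemma lintegral_evo (h : Nice w G) (s : ℝ) :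
    ∫⁻ x, ‖evo G x s 0‖ₑ ^ 2 = ∫⁻ η, ‖G η‖ₑ ^ 2 := by
  have h1 := lintegral_evo_zero (h.sft s).integrable (h.sft s).memLp
  simp_rw [evo_sft, zero_add] at h1
  rw [h1]
  refine lintegral_congr fun η => ?_
  rw [← ofReal_norm, ← ofReal_norm, norm_sft]

lemma lintegral_le_En (hw1 : ∀ η, 1 ≤ w η) (G : E n → ℂ) : ∫⁻ η, ‖G η‖ₑ ^ 2 ≤ En w G := by
  refine lintegral_mono fun η => ?_
  calc ‖G η‖ₑ ^ 2 = 1 * ‖G η‖ₑ ^ 2 := (one_mul _).symm
    _ ≤ w η * ‖G η‖ₑ ^ 2 := by gcongr; exact hw1 η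

/-- Chebyshev -/
lemma volume_evo_gt (hw1 : ∀ η, 1 ≤ w η) (h : Nice w G) (s : ℝ) {ε : ℝ} (hε : 0 < ε) :
    volume {x : E n | ε < ‖evo G x s 0‖} ≤ En w G / ENNReal.ofReal ε ^ 2 := by
  have h1 : AEMeasurable (fun x : E n => ‖evo G x s 0‖ₑ ^ 2) volume :=
    ((continuous_evo_x h.integrable s).measurable.enorm.pow_const 2).aemeasurable
  have h2 := meas_ge_le_lintegral_div h1 (ε := ENNReal.ofReal ε ^ 2)
    (by simpa using hε) (by finiteness)
  refine le_trans (measure_mono fun x hx => ?_) (h2.trans ?_)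
  · simp only [Set.mem_ofPred_eq] at hx ⊢
    gcongr
    rw [← ofReal_norm]
    exact ENNReal.ofReal_le_ofReal hx.le
  · gcongr
    rw [lintegral_evo h s]
    exact lintegral_le_En hw1 G

/-! ### truncations -/

/-- the truncation of frequency data -/
noncomputable def cut (G : E n → ℂ) (m : ℕ) : E n → ℂ :=
  {η | ‖η‖ ≤ m ∧ ‖G η‖ ≤ m}.indicator G

lemma measurableSet_cut (hG : Measurable G) (m : ℕ) : MeasurableSet {η : E n | ‖η‖ ≤ m ∧ ‖G η‖ ≤ m} :=
  (measurableSet_le measurable_norm measurable_const).inter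
    (measurableSet_le hG.norm measurable_const)

lemma nice_cut (hG : Measurable G) (hE : En w G < ⊤) (m : ℕ) : Nice w (cut G m) where
  meas := hG.indicator (measurableSet_cut hG m)
  bdd := by
    refine ⟨m, fun η => ?_⟩
    unfold cut
    by_cases h : η ∈ {η | ‖η‖ ≤ m ∧ ‖G η‖ ≤ m}
    · rw [indicator_of_mem h]; exact h.2
    · rw [indicator_of_notMem h, norm_zero]; positivity
  supp := by
    refine ⟨m, fun η h => ?_⟩
    by_contra h'
    refine h (indicator_of_notMem (fun h'' => h' h''.1) _)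
  en := by
    refine lt_of_le_of_lt (lintegral_mono fun η => ?_) hE
    unfold cut
    by_cases h : η ∈ {η | ‖η‖ ≤ m ∧ ‖G η‖ ≤ m}
    · rw [indicator_of_mem h]
    · rw [indicator_of_notMem h]; simp

lemma tendsto_cut (hw : Measurable w) (hG : Measurable G) (hE : En w G < ⊤) :
    Tendsto (fun m => En w (G - cut G m)) atTop (𝓝 0) := by
  have h0 : (0 : ℝ≥0∞) = ∫⁻ _ : E n, 0 := by simp
  rw [h0]
  unfold En
  refine tendsto_lintegral_of_dominated_convergence (fun η => w η * ‖G η‖ₑ ^ 2) ?_ ?_ hE.ne ?_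
  · intro m
    exact hw.mul ((hG.sub (hG.indicator (measurableSet_cut hG m))).enorm.pow_const 2)
  · refine fun m => Eventually.of_forall fun η => ?_
    simp only [Pi.sub_apply, cut]
    by_cases h : η ∈ {η | ‖η‖ ≤ m ∧ ‖G η‖ ≤ m}
    · rw [indicator_of_mem h]; simp
    · rw [indicator_of_notMem h]; simp
  · refine Eventually.of_forall fun η => ?_
    refine tendsto_const_nhds.congr' ?_
    obtain ⟨m₀, hm₀⟩ := exists_nat_ge (max ‖η‖ ‖G η‖)
    filter_upwards [eventually_ge_atTop m₀] with m hm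
    have h : η ∈ {η | ‖η‖ ≤ m ∧ ‖G η‖ ≤ m} := by
      have : (m₀ : ℝ) ≤ m := by exact_mod_cast hm
      exact ⟨((le_max_left _ _).trans hm₀).trans this, ((le_max_right _ _).trans hm₀).trans this⟩
    simp only [Pi.sub_apply, cut]
    rw [indicator_of_mem h]
    simp

end Vale.Agent.P076.H791
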