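import Vale.Agent.P076.H791.Zero

/-!
# The regularised values converge in `L²` to the Plancherel evolution
-/

open MeasureTheory Complex FourierTransform Filter Topology Set
open scoped ENNReal NNReal

namespace Vale.Agent.P076.H791

variable {n : ℕ}

/-- the regularised frequency data -/
noncomputable def reg (s b : ℝ) (G : E n → ℂ) (η : E n) : ℂ :=
  ((Real.exp (-(b * ‖η‖ ^ 2)) : ℝ) : ℂ) * sft s G η

lemma evo_reg (s b : ℝ) (G : E n → ℂ) (x : E n) : evo G x s b = evo (reg s b G) x 0 0 := by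
  rw [evo_eq, evo_eq]
  refine integral_congr_ae (Eventually.of_forall fun η => ?_)
  simp only [ph, reg, sft]
  rw [← mul_assoc, Complex.ofReal_exp, ← Complex.exp_add, ← mul_assoc, ← Complex.exp_add]
  congr 2
  push_cast
  ring

lemma norm_reg (s b : ℝ) (G : E n → ℂ) (η : E n) :
    ‖reg s b G η‖ = Real.exp (-(b * ‖η‖ ^ 2)) * ‖G η‖ := by
  rw [reg, norm_mul, norm_sft, Complex.norm_real, Real.norm_eq_abs, abs_of_pos (Real.exp_pos _)]

lemma norm_reg_le (s : ℝ) {b : ℝ} (hb : 0 ≤ b) (G : E n → ℂ) (η : E n) :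
    ‖reg s b G η‖ ≤ ‖G η‖ := by
  rw [norm_reg]
  refine mul_le_of_le_one_left (norm_nonneg _) ?_
  rw [Real.exp_le_one_iff]
  have : 0 ≤ b * ‖η‖ ^ 2 := by positivity
  linarith

lemma measurable_sft {G : E n → ℂ} (hG : Measurable G) (s : ℝ) : Measurable (sft s G) := by
  unfold sft
  fun_prop

lemma measurable_reg {G : E n → ℂ} (hG : Measurable G) (s b : ℝ) : Measurable (reg s b G) := by
  have := measurable_sft hG s
  unfold reg
  fun_prop

lemma memLp_reg {G : E n → ℂ} (hG : Measurable G) (h2 : MemLp G 2 volume) (s : ℝ) {b : ℝ}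
    (hb : 0 ≤ b) : MemLp (reg s b G) 2 volume :=
  h2.mono (measurable_reg hG s b).aestronglyMeasurable
    (Eventually.of_forall fun η => norm_reg_le s hb G η)

lemma integrable_reg {G : E n → ℂ} (hG : Measurable G) (h2 : MemLp G 2 volume) (s : ℝ) {b : ℝ}
    (hb : 0 < b) : Integrable (reg s b G) := by
  have hg := integrable_gauss (n := n) hb
  have hsq : Integrable (fun η => ‖G η‖ ^ 2) := h2.integrable_norm_pow (by norm_num)
  refine Integrable.mono' (hg.add hsq) (measurable_reg hG s b).aestronglyMeasurable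
    (Eventually.of_forall fun η => ?_)
  rw [norm_reg, Pi.add_apply]
  have e1 : Real.exp (-(2 * b * ‖η‖ ^ 2)) = Real.exp (-(b * ‖η‖ ^ 2)) ^ 2 := by
    rw [← Real.exp_nat_mul]; congr 1; push_cast; ring
  rw [e1]
  nlinarith [sq_nonneg (Real.exp (-(b * ‖η‖ ^ 2)) - ‖G η‖), sq_nonneg (Real.exp (-(b * ‖η‖ ^ 2))),
    sq_nonneg ‖G η‖]

lemma tendsto_reg {G : E n → ℂ} (hG : Measurable G) (h2 : MemLp G 2 volume) (s : ℝ) {b : ℕ → ℝ}
    (hb : ∀ k, 0 < b k) (hb0 : Tendsto b atTop (𝓝 0)) :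
    Tendsto (fun k => eLpNorm (fun η => reg s (b k) G η - sft s G η) 2 volume) atTop (𝓝 0) := by
  have key : Tendsto (fun k => ∫⁻ η, ‖reg s (b k) G η - sft s G η‖ₑ ^ 2) atTop (𝓝 (∫⁻ _ : E n, 0)) := by
    refine tendsto_lintegral_of_dominated_convergence (fun η => ‖G η‖ₑ ^ 2) ?_ ?_ ?_ ?_
    · intro k
      exact ((measurable_reg hG s (b k)).sub (measurable_sft hG s)).enorm.pow_const 2
    · refine fun k => Eventually.of_forall fun η => ?_
      have h3 : ‖reg s (b k) G η - sft s G η‖ ≤ ‖G η‖ := by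
        have e : reg s (b k) G η - sft s G η
            = ((Real.exp (-(b k * ‖η‖ ^ 2)) - 1 : ℝ) : ℂ) * sft s G η := by
          rw [reg]; push_cast; ring
        rw [e, norm_mul, norm_sft, Complex.norm_real, Real.norm_eq_abs]
        refine mul_le_of_le_one_left (norm_nonneg _) ?_
        have h4 : Real.exp (-(b k * ‖η‖ ^ 2)) ≤ 1 := by
          rw [Real.exp_le_one_iff]
          have : 0 ≤ b k * ‖η‖ ^ 2 := mul_nonneg (hb k).le (by positivity)
          linarith
        have h5 := Real.exp_pos (-(b k * ‖η‖ ^ 2))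
        rw [abs_le]
        constructor <;> linarith
      have h6 : ‖reg s (b k) G η - sft s G η‖ₑ ≤ ‖G η‖ₑ := by
        rw [← ofReal_norm, ← ofReal_norm]
        exact ENNReal.ofReal_le_ofReal h3
      exact pow_le_pow_left' h6 2
    · have := sq_eLpNorm (volume : Measure (E n)) G
      rw [← this]
      exact ENNReal.pow_ne_top h2.2.ne
    · refine Eventually.of_forall fun η => ?_
      have h3 : Tendsto (fun k => reg s (b k) G η - sft s G η) atTop (𝓝 0) := by
        have h4 : Continuous fun t : ℝ => ((Real.exp (-(t * ‖η‖ ^ 2)) : ℝ) : ℂ) * sft s G η - sft s G η := by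
          fun_prop
        have h5 := (h4.tendsto 0).comp hb0
        simpa [reg, Function.comp_def] using h5
      have h6 : Continuous fun z : ℂ => ‖z‖ₑ ^ 2 := by fun_prop
      have h7 := (h6.tendsto 0).comp h3
      simpa [Function.comp_def] using h7
  rw [lintegral_zero] at key
  simp_rw [← sq_eLpNorm] at key
  have h8 := (ENNReal.continuous_rpow_const (y := (1 / 2 : ℝ))).continuousAt.tendsto.comp key
  rw [ENNReal.zero_rpow_of_pos (by norm_num)] at h8
  refine h8.congr fun k => ?_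
  simp only [Function.comp]
  rw [← ENNReal.rpow_natCast, ← ENNReal.rpow_mul]
  norm_num

/-- the regularised values converge in `L²` -/
lemma tendsto_evo_L2 (F F' : Lp ℂ 2 (volume : Measure (E n))) (s : ℝ)
    (hF : ∀ᵐ η, (𝓕 F' : Lp ℂ 2 (volume : Measure (E n))) η =
      sft s (fun η => (𝓕 F : Lp ℂ 2 (volume : Measure (E n))) η) η) {b : ℕ → ℝ}
    (hb : ∀ k, 0 < b k) (hb0 : Tendsto b atTop (𝓝 0)) :
    Tendsto (fun k => eLpNorm (fun x => evo (fun η => (𝓕 F : Lp ℂ 2 (volume : Measure (E n))) η)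
      x s (b k) - F' x) 2 volume) atTop (𝓝 0) := by
  set G : E n → ℂ := fun η => (𝓕 F : Lp ℂ 2 (volume : Measure (E n))) η with hG
  have hGm : Measurable G := (Lp.stronglyMeasurable _).measurable
  have hG2 : MemLp G 2 volume := Lp.memLp _
  refine (tendsto_reg hGm hG2 s hb hb0).congr fun k => ?_
  have h1 := integrable_reg hGm hG2 s (hb k)
  have h2 := memLp_reg hGm hG2 s (hb k).le
  have e1 : eLpNorm (fun x => evo G x s (b k) - F' x) 2 volume
      = ‖(𝓕⁻ (h2.toLp (reg s (b k) G)) : Lp ℂ 2 (volume : Measure (E n))) - F'‖ₑ := by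
    rw [Lp.enorm_def]
    refine eLpNorm_congr_ae ?_
    filter_upwards [evo_zero_ae_eq h1 h2, Lp.coeFn_sub
      (𝓕⁻ (h2.toLp (reg s (b k) G)) : Lp ℂ 2 (volume : Measure (E n))) F'] with x hx1 hx2
    rw [hx2, Pi.sub_apply, hx1, evo_reg]
  have e2 : ‖(𝓕⁻ (h2.toLp (reg s (b k) G)) : Lp ℂ 2 (volume : Measure (E n))) - F'‖
      = ‖h2.toLp (reg s (b k) G) - 𝓕 F'‖ := by
    have h3 : (𝓕 ((𝓕⁻ (h2.toLp (reg s (b k) G)) : Lp ℂ 2 (volume : Measure (E n))) - F') :
        Lp ℂ 2 (volume : Measure (E n))) = h2.toLp (reg s (b k) G) - 𝓕 F' := by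
      have h9 := (Lp.fourierTransformₗᵢ (E n) ℂ).map_sub (𝓕⁻ (h2.toLp (reg s (b k) G))) F'
      have h10 : (𝓕 (𝓕⁻ (h2.toLp (reg s (b k) G)) : Lp ℂ 2 (volume : Measure (E n))) :
        Lp ℂ 2 (volume : Measure (E n))) = h2.toLp (reg s (b k) G) := fourier_fourierInv_eq _
      exact h9.trans (congrArg (fun z : Lp ℂ 2 (volume : Measure (E n)) => z - 𝓕 F') h10)
    rw [← h3]
    exact (Lp.norm_fourier_eq _).symm
  rw [e1, ← ofReal_norm, e2, ofReal_norm, Lp.enorm_def]
  refine eLpNorm_congr_ae ?_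
  filter_upwards [Lp.coeFn_sub (h2.toLp (reg s (b k) G)) (𝓕 F'), h2.coeFn_toLp, hF] with η h4 h5 h6
  rw [h4, Pi.sub_apply, h5, h6]

end Vale.Agent.P076.H791
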