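import Vale.Agent.P076.MathlibUsed

/-! Two selection lemmas: translates of a set fill a ball, and a choice of integer coefficients. -/

open MeasureTheory Filter Topology
open scoped ENNReal

namespace Vale.Agent.P076.H791

section Fill

variable {n : ℕ}

/-- The average over the translates. -/
lemma exists_translate {κ : ℝ≥0∞} (hκ : 0 < κ) {r₀ r : ℝ} {A Z : Set (EuclideanSpace ℝ (Fin n))}
    (hA : MeasurableSet A) (hA' : A ⊆ Metric.ball 0 r₀) (hκA : κ ≤ volume A)
    (hZ : MeasurableSet Z) (hZ' : Z ⊆ Metric.ball 0 r) :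
    ∃ y : EuclideanSpace ℝ (Fin n), volume {x ∈ Z | x - y ∉ A} ≤
      (1 - κ / volume (Metric.ball (0 : EuclideanSpace ℝ (Fin n)) (r + r₀))) * volume Z := by
  set Y : Set (EuclideanSpace ℝ (Fin n)) := Metric.ball 0 (r + r₀) with hY
  have hVt : volume Y ≠ ⊤ := (measure_ball_lt_top).ne
  rcases Set.eq_empty_or_nonempty Z with hZe | ⟨z, hz⟩
  · exact ⟨0, by simp [hZe]⟩
  have hZt : volume Z ≠ ⊤ := ne_top_of_le_ne_top (measure_ball_lt_top).ne (measure_mono hZ')
  have hr : 0 < r := by
    have := hZ' hz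
    rw [Metric.mem_ball] at this
    exact lt_of_le_of_lt dist_nonneg this
  have hAY : A ⊆ Y := hA'.trans (Metric.ball_subset_ball (by linarith))
  have hV0 : volume Y ≠ 0 := by
    have : κ ≤ volume Y := hκA.trans (measure_mono hAY)
    exact (lt_of_lt_of_le hκ this).ne'
  set S : Set (EuclideanSpace ℝ (Fin n) × EuclideanSpace ℝ (Fin n)) :=
    {p | p.1 ∈ Z ∧ p.2 ∈ Y ∧ p.1 - p.2 ∈ A} with hS
  have hYm : MeasurableSet Y := measurableSet_ball
  have hSm : MeasurableSet S :=
    (measurable_fst hZ).inter ((measurable_snd hYm).inter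
      ((measurable_fst.sub measurable_snd) hA))
  set f : EuclideanSpace ℝ (Fin n) → ℝ≥0∞ := fun y => volume {x ∈ Z | x - y ∈ A} with hf
  have h1 : ∫⁻ y in Y, f y = volume Z * volume A := by
    have e1 : (volume.prod volume : Measure (EuclideanSpace ℝ (Fin n) ×
        EuclideanSpace ℝ (Fin n))) S = ∫⁻ y in Y, f y := by
      rw [Measure.prod_apply_symm hSm, ← lintegral_indicator hYm]
      refine lintegral_congr fun y => ?_
      by_cases hy : y ∈ Y
      · rw [Set.indicator_of_mem hy]
        congr 1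
        ext x
        simp [hS, hy]
      · rw [Set.indicator_of_notMem hy]
        have : (fun x => (x, y)) ⁻¹' S = ∅ := by
          ext x
          simp [hS, hy]
        rw [this, measure_empty]
    have e2 : (volume.prod volume : Measure (EuclideanSpace ℝ (Fin n) ×
        EuclideanSpace ℝ (Fin n))) S = volume Z * volume A := by
      rw [Measure.prod_apply hSm]
      have : ∀ x, volume (Prod.mk x ⁻¹' S) = Z.indicator (fun _ => volume A) x := by
        intro x
        by_cases hx : x ∈ Z
        · rw [Set.indicator_of_mem hx]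
          have e3 : Prod.mk x ⁻¹' S = (fun y => x - y) ⁻¹' A := by
            ext y
            constructor
            · rintro ⟨_, _, h⟩
              exact h
            · intro h
              refine ⟨hx, ?_, h⟩
              have h2 := hA' h
              have h3 := hZ' hx
              rw [mem_ball_zero_iff] at h2 h3
              rw [hY, mem_ball_zero_iff]
              calc ‖y‖ = ‖x - (x - y)‖ := by congr 1; abel
                _ ≤ ‖x‖ + ‖x - y‖ := norm_sub_le _ _
                _ < r + r₀ := by linarith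
          rw [e3]
          exact (Measure.measurePreserving_sub_left volume x).measure_preimage hA.nullMeasurableSet
        · rw [Set.indicator_of_notMem hx]
          have : Prod.mk x ⁻¹' S = ∅ := by
            ext y
            simp [hS, hx]
          rw [this, measure_empty]
      rw [lintegral_congr this, lintegral_indicator hZ, lintegral_const, Measure.restrict_apply_univ,
        mul_comm]
    rw [← e1, e2]
  have hAt : volume A ≠ ⊤ := ne_top_of_le_ne_top hVt (measure_mono hAY)
  obtain ⟨y, -, hy⟩ := exists_setLAverage_le (μ := volume) (s := Y) (f := f) hV0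
    hYm.nullMeasurableSet (by rw [h1]; exact ENNReal.mul_ne_top hZt hAt)
  refine ⟨y, ?_⟩
  rw [setLAverage_eq, h1] at hy
  have hD : MeasurableSet {x : EuclideanSpace ℝ (Fin n) | x - y ∈ A} :=
    (measurable_id.sub measurable_const) hA
  have h2 := measure_inter_add_sdiff (μ := volume) Z hD
  have h3 : Z ∩ {x | x - y ∈ A} = {x ∈ Z | x - y ∈ A} := rfl
  have h4 : Z \ {x | x - y ∈ A} = {x ∈ Z | x - y ∉ A} := rfl
  rw [h3, h4] at h2
  have h5 : κ / volume Y * volume Z ≤ volume {x ∈ Z | x - y ∈ A} := by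
    refine le_trans ?_ hy
    have e : κ / volume Y * volume Z = volume Z * κ / volume Y := by
      rw [div_eq_mul_inv, div_eq_mul_inv]
      ring
    rw [e]
    gcongr
  rw [ENNReal.sub_mul (fun _ _ => hZt), one_mul]
  refine ENNReal.le_sub_of_add_le_left (ne_top_of_le_ne_top ?_ h5) ?_
  · exact ne_top_of_le_ne_top hZt (measure_mono fun x hx => hx.1)
  · calc κ / volume Y * volume Z + volume {x ∈ Z | x - y ∉ A}
        ≤ volume {x ∈ Z | x - y ∈ A} + volume {x ∈ Z | x - y ∉ A} := by gcongr
      _ = volume Z := h2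

lemma exists_fill {n : ℕ} {κ ε : ℝ≥0∞} (hκ : 0 < κ) (hε : 0 < ε) (r₀ r : ℝ) :
    ∃ J : ℕ, ∀ A : Set (EuclideanSpace ℝ (Fin n)), MeasurableSet A → A ⊆ Metric.ball 0 r₀ →
      κ ≤ volume A → ∃ y : Fin J → EuclideanSpace ℝ (Fin n),
        volume {x ∈ Metric.ball (0 : EuclideanSpace ℝ (Fin n)) r | ∀ i, x - y i ∉ A} ≤ ε := by
  set q : ℝ≥0∞ := 1 - κ / volume (Metric.ball (0 : EuclideanSpace ℝ (Fin n)) (r + r₀)) with hq
  set B : Set (EuclideanSpace ℝ (Fin n)) := Metric.ball 0 r with hB
  have hq1 : q < 1 := by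
    refine ENNReal.sub_lt_self ENNReal.one_ne_top one_ne_zero ?_
    exact (ENNReal.div_pos hκ.ne' (measure_ball_lt_top).ne).ne'
  have hBt : volume B ≠ ⊤ := (measure_ball_lt_top).ne
  have hlim : Tendsto (fun J : ℕ => q ^ J * volume B) atTop (𝓝 0) := by
    have := ENNReal.Tendsto.mul_const (b := volume B)
      (ENNReal.tendsto_pow_atTop_nhds_zero_of_lt_one hq1) (Or.inr hBt)
    simpa using this
  obtain ⟨J, hJ⟩ := ((tendsto_order.1 hlim).2 ε hε).exists
  refine ⟨J, fun A hA hA' hκA => ?_⟩
  have key : ∀ j : ℕ, ∃ y : Fin j → EuclideanSpace ℝ (Fin n),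
      volume {x ∈ B | ∀ i, x - y i ∉ A} ≤ q ^ j * volume B := by
    intro j
    induction j with
    | zero =>
      refine ⟨fun i => i.elim0, ?_⟩
      rw [pow_zero, one_mul]
      exact measure_mono fun x hx => hx.1
    | succ j ih =>
      obtain ⟨y, hy⟩ := ih
      have hZ : MeasurableSet {x ∈ B | ∀ i, x - y i ∉ A} := by
        have e : {x ∈ B | ∀ i, x - y i ∉ A} = B ∩ ⋂ i, {x | x - y i ∈ A}ᶜ := by
          ext x
          simp
        rw [e]
        exact measurableSet_ball.inter (MeasurableSet.iInter fun i =>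
          ((measurable_id.sub measurable_const) hA).compl)
      obtain ⟨z, hz⟩ := exists_translate hκ hA hA' hκA hZ (fun x hx => hx.1)
      refine ⟨Fin.cons z y, ?_⟩
      have e : {x ∈ B | ∀ i : Fin (j + 1),
          x - (Fin.cons z y : Fin (j + 1) → EuclideanSpace ℝ (Fin n)) i ∉ A}
          = {x ∈ {x ∈ B | ∀ i, x - y i ∉ A} | x - z ∉ A} := by
        ext x
        simp only [Set.mem_ofPred_eq, Fin.forall_fin_succ, Fin.cons_zero, Fin.cons_succ]
        tauto
      rw [e]
      refine hz.trans ?_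
      rw [pow_succ, mul_comm (q ^ j) q, mul_assoc]
      gcongr
  obtain ⟨y, hy⟩ := key J
  exact ⟨y, hy.trans hJ.le⟩

end Fill

section Coef

/-- At most `K ^ J / K` of the coefficient vectors are bad at a given point. -/
lemma card_bad {ι : Type*} {J K : ℕ} {M : ℝ} (b : ι → ℂ) (v : Fin J → ι → ℂ)
    (hv : ∃ i s, 2 * M < ‖v i s‖) (T : Finset (Fin J → Fin K))
    (hT : ∀ c ∈ T, ∀ s, ‖b s + ∑ i, ((c i : ℕ) : ℂ) * v i s‖ ≤ M) :
    T.card * K ≤ K ^ J := by
  classical
  obtain ⟨i, s, his⟩ := hv
  have hinj : Set.InjOn (fun p : (Fin J → Fin K) × Fin K => Function.update p.1 i p.2)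
      (T ×ˢ (Finset.univ : Finset (Fin K)) : Finset _) := by
    rintro ⟨c, k⟩ hc ⟨c', k'⟩ hc' h
    simp only [Finset.coe_product, Set.mem_prod, Finset.mem_coe] at hc hc'
    simp only at h
    have hk : k = k' := by
      have := congrFun h i
      simpa using this
    have hoff : ∀ j, j ≠ i → c j = c' j := by
      intro j hj
      have := congrFun h j
      simpa [Function.update_of_ne hj] using this
    have hii : c i = c' i := by
      by_contra hne
      have h1 := hT c hc.1 s
      have h2 := hT c' hc'.1 s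
      have h3 : (b s + ∑ j, ((c j : ℕ) : ℂ) * v j s) - (b s + ∑ j, ((c' j : ℕ) : ℂ) * v j s)
          = (((c i : ℕ) : ℂ) - ((c' i : ℕ) : ℂ)) * v i s := by
        rw [add_sub_add_left_eq_sub, ← Finset.sum_sub_distrib, Finset.sum_eq_single i]
        · ring
        · intro j _ hj
          rw [hoff j hj, sub_self]
        · intro h
          exact absurd (Finset.mem_univ i) h
      have h4 : ‖(((c i : ℕ) : ℂ) - ((c' i : ℕ) : ℂ)) * v i s‖ ≤ 2 * M := by
        rw [← h3]
        exact (norm_sub_le _ _).trans (by linarith)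
      have h5 : (1 : ℝ) ≤ ‖((c i : ℕ) : ℂ) - ((c' i : ℕ) : ℂ)‖ := by
        have h6 : ((c i : ℕ) : ℤ) - ((c' i : ℕ) : ℤ) ≠ 0 := by
          intro h0
          apply hne
          apply Fin.ext
          omega
        have h7 : ((c i : ℕ) : ℂ) - ((c' i : ℕ) : ℂ)
            = ((((c i : ℕ) : ℤ) - ((c' i : ℕ) : ℤ) : ℤ) : ℂ) := by push_cast; rfl
        rw [h7, Complex.norm_intCast]
        exact_mod_cast Int.one_le_abs h6
      rw [norm_mul] at h4
      have h8 : ‖v i s‖ ≤ ‖((c i : ℕ) : ℂ) - ((c' i : ℕ) : ℂ)‖ * ‖v i s‖ :=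
        le_mul_of_one_le_left (norm_nonneg _) h5
      linarith
    have : c = c' := by
      funext j
      by_cases hj : j = i
      · rw [hj, hii]
      · exact hoff j hj
    rw [this, hk]
  have := Finset.card_le_card_of_injOn (t := (Finset.univ : Finset (Fin J → Fin K))) _
    (fun _ _ => Finset.mem_univ _) hinj
  rw [Finset.card_product, Finset.card_univ, Finset.card_univ, Fintype.card_fin, Fintype.card_fun,
    Fintype.card_fin, Fintype.card_fin] at this
  exact this

lemma exists_coef {X ι : Type*} [MeasurableSpace X] (μ : Measure X) {J K : ℕ} (hK : 0 < K)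
    {Z : Set X} (hZ : MeasurableSet Z) {M : ℝ} (b : ι → X → ℂ) (v : Fin J → ι → X → ℂ)
    (hv : ∀ x ∈ Z, ∃ i s, 2 * M < ‖v i s x‖)
    (hm : ∀ c : Fin J → Fin K,
      MeasurableSet {x ∈ Z | ∀ s, ‖b s x + ∑ i, ((c i : ℕ) : ℂ) * v i s x‖ ≤ M}) :
    ∃ c : Fin J → Fin K,
      μ {x ∈ Z | ∀ s, ‖b s x + ∑ i, ((c i : ℕ) : ℂ) * v i s x‖ ≤ M} ≤ μ Z / K := by
  classical
  set Bad : (Fin J → Fin K) → Set X :=
    fun c => {x ∈ Z | ∀ s, ‖b s x + ∑ i, ((c i : ℕ) : ℂ) * v i s x‖ ≤ M} with hBad
  have : Nonempty (Fin K) := ⟨⟨0, hK⟩⟩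
  have hK0 : (K : ℝ≥0∞) ≠ 0 := by exact_mod_cast hK.ne'
  have hKt : (K : ℝ≥0∞) ≠ ⊤ := ENNReal.natCast_ne_top K
  have hpt : ∀ x, ∑ c, (Bad c).indicator (fun _ => (1 : ℝ≥0∞)) x ≤
      Z.indicator (fun _ => (K : ℝ≥0∞) ^ J / K) x := by
    intro x
    by_cases hx : x ∈ Z
    · rw [Set.indicator_of_mem hx, ENNReal.le_div_iff_mul_le (Or.inl hK0) (Or.inl hKt)]
      have e : ∑ c, (Bad c).indicator (fun _ => (1 : ℝ≥0∞)) x
          = ((Finset.univ.filter fun c => x ∈ Bad c).card : ℝ≥0∞) := by
        rw [Finset.card_filter]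
        push_cast
        refine Finset.sum_congr rfl fun c _ => ?_
        by_cases hc : x ∈ Bad c
        · simp [hc]
        · simp [hc]
      rw [e]
      have := card_bad (K := K) (M := M) (fun s => b s x) (fun i s => v i s x) (hv x hx)
        (Finset.univ.filter fun c => x ∈ Bad c) (fun c hc s => by
          rw [Finset.mem_filter] at hc
          exact hc.2.2 s)
      exact_mod_cast this
    · rw [Set.indicator_of_notMem hx]
      refine le_of_eq (Finset.sum_eq_zero fun c _ => ?_)
      exact Set.indicator_of_notMem (fun h => hx h.1) _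
  have hsum : ∑ c, μ (Bad c) ≤ ∑ _c : Fin J → Fin K, μ Z / K := by
    have e1 : ∑ c, μ (Bad c) = ∫⁻ x, ∑ c, (Bad c).indicator (fun _ => (1 : ℝ≥0∞)) x ∂μ := by
      rw [lintegral_finsetSum _ fun c _ => measurable_const.indicator (hm c)]
      refine Finset.sum_congr rfl fun c _ => ?_
      rw [lintegral_indicator (hm c), lintegral_const, Measure.restrict_apply_univ, one_mul]
    rw [e1, Finset.sum_const, Finset.card_univ, Fintype.card_fun, Fintype.card_fin,
      Fintype.card_fin, nsmul_eq_mul]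
    refine (lintegral_mono hpt).trans ?_
    rw [lintegral_indicator hZ, lintegral_const, Measure.restrict_apply_univ]
    refine le_of_eq ?_
    push_cast
    rw [div_eq_mul_inv, div_eq_mul_inv]
    ring
  obtain ⟨c, -, hc⟩ := ENNReal.exists_le_of_sum_le Finset.univ_nonempty hsum
  exact ⟨c, hc⟩

end Coef

end Vale.Agent.P076.H791
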