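import Vale.Agent.P076.H791.Cons

/-!
# The zero-one law as an equivalence
-/

open MeasureTheory Complex FourierTransform Filter Topology Set
open scoped ENNReal NNReal

namespace Vale.Agent.P076.H791

variable {n : ℕ}

/-- Convergence as in the question: for almost every `x` the value `u t = e^{itΔ}f(x)` exists for
all sufficiently small `t > 0`, and `u t → f x` as `t ↓ 0`. -/
def ConvergesAE (f g : (Fin n → ℝ) → ℂ) : Prop :=
  ∀ᵐ x, ∃ u : ℝ → ℂ,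
    (∀ᶠ t in 𝓝[>] (0 : ℝ), Tendsto (fun a => evolve g t a x) (𝓝[>] 0) (𝓝 (u t))) ∧
      Tendsto u (𝓝[>] 0) (𝓝 (f x))

/-- For almost every `x` the value `u t = e^{itΔ}f(x)` exists for ALL real times `t`, it is a
continuous function of `t`, and `u 0 = f x`. -/
def ConvergesStrongly (f g : (Fin n → ℝ) → ℂ) : Prop :=
  ∀ᵐ x, ∃ u : ℝ → ℂ, Continuous u ∧ u 0 = f x ∧
    ∀ t, Tendsto (fun a => evolve g t a x) (𝓝[>] 0) (𝓝 (u t))

/-- There is a set `T` of times `t > 0`, finite outside every neighbourhood of `0`, such that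
`limsup |e^{itΔ}f(x)| = ∞` as `t → 0`, `t ∈ T`, for almost every `x`; here `u t = e^{itΔ}f` is the
function whose Plancherel Fourier transform is `e^{-it|ξ|²} g(ξ)`. -/
def BlowsUpAlongSet (g : (Fin n → ℝ) → ℂ) : Prop :=
  ∃ T : Set ℝ, T ⊆ Set.Ioi 0 ∧ (∀ δ > 0, (T ∩ Set.Ici δ).Finite) ∧
    ∀ u : ℝ → (Fin n → ℝ) → ℂ,
      (∀ t ∈ T, IsFourierPair (u t) fun ξ => cexp (-(I * t * nrm ξ ^ 2)) * g ξ) →
      ∀ᵐ x, ∀ M : ℝ, ∃ᶠ t in 𝓝[T] (0 : ℝ), M < ‖u t x‖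

lemma phase_eq (t : ℝ) (F : Lp ℂ 2 (volume : Measure (E n))) (ξ : Fin n → ℝ) :
    sft (2 * Real.pi * t) (fun η => (𝓕 F : Lp ℂ 2 (volume : Measure (E n))) η)
      ((2 * Real.pi)⁻¹ • toE ξ) = cexp (-(I * t * nrm ξ ^ 2)) * freq F ξ := by
  have hpi : (0 : ℝ) < 2 * Real.pi := by positivity
  rw [sft]
  have h1 : (𝓕 F : Lp ℂ 2 (volume : Measure (E n))) ((2 * Real.pi)⁻¹ • toE ξ) = freq F ξ := rfl
  rw [h1]
  congr 2
  rw [norm_smul, nrm_eq, Real.norm_eq_abs, abs_of_pos (inv_pos.2 hpi)]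
  have hpc : (Real.pi : ℂ) ≠ 0 := by exact_mod_cast Real.pi_ne_zero
  push_cast
  field_simp

/-- the Plancherel evolution exists -/
theorem exists_evolution_L2 {f g : (Fin n → ℝ) → ℂ} (h : IsFourierPair f g) (t : ℝ) :
    ∃ v : (Fin n → ℝ) → ℂ, IsFourierPair v fun ξ => cexp (-(I * t * nrm ξ ^ 2)) * g ξ := by
  obtain ⟨F, hf, hg⟩ := exists_lp h
  set G : E n → ℂ := fun η => (𝓕 F : Lp ℂ 2 (volume : Measure (E n))) η with hG
  have hGm : Measurable G := (Lp.stronglyMeasurable _).measurable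
  have hG2 : MemLp G 2 volume := Lp.memLp _
  have h2 : MemLp (sft (2 * Real.pi * t) G) 2 volume :=
    hG2.mono (measurable_sft hGm _).aestronglyMeasurable
      (Eventually.of_forall fun η => (norm_sft _ G η).le)
  set F' : Lp ℂ 2 (volume : Measure (E n)) := 𝓕⁻ (h2.toLp _) with hF'
  have h3 : ∀ᵐ η, (𝓕 F' : Lp ℂ 2 (volume : Measure (E n))) η = sft (2 * Real.pi * t) G η := by
    rw [hF', fourier_fourierInv_eq]
    exact h2.coeFn_toLp
  refine ⟨phys F', isFourierPair_congr (isFourierPair F') (ae_eq_refl _) ?_⟩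
  filter_upwards [freq_ae h3, hg] with ξ h4 h5
  rw [h4, h5, hG, phase_eq]

/-- For almost every `x`: if the regularised values converge, then to the Plancherel evolution. -/
theorem value_eq {f g v : (Fin n → ℝ) → ℂ} (h : IsFourierPair f g) (t : ℝ)
    (hv : IsFourierPair v fun ξ => cexp (-(I * t * nrm ξ ^ 2)) * g ξ) :
    ∀ᵐ x, ∀ ℓ, Tendsto (fun a => evolve g t a x) (𝓝[>] 0) (𝓝 ℓ) → v x = ℓ := by
  obtain ⟨F, hf, hg⟩ := exists_lp h
  obtain ⟨F', hv1, hv2⟩ := exists_lp hv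
  set G : E n → ℂ := fun η => (𝓕 F : Lp ℂ 2 (volume : Measure (E n))) η with hG
  have hGm : Measurable G := (Lp.stronglyMeasurable _).measurable
  have hG2 : MemLp G 2 volume := Lp.memLp _
  have hF : ∀ᵐ η, (𝓕 F' : Lp ℂ 2 (volume : Measure (E n))) η = sft (2 * Real.pi * t) G η := by
    refine freq_ae' ?_
    filter_upwards [hv2, hg] with ξ h1 h2
    rw [← h1, h2, hG, phase_eq]
  set a : ℕ → ℝ := fun k => 1 / ((k : ℝ) + 1) with ha
  have ha0 : ∀ k, 0 < a k := fun k => by positivity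
  have hat : Tendsto a atTop (𝓝 0) := tendsto_one_div_add_atTop_nhds_zero_nat
  have hb0 : ∀ k, 0 < 4 * Real.pi ^ 2 * a k := fun k => by have := ha0 k; positivity
  have hbt : Tendsto (fun k => 4 * Real.pi ^ 2 * a k) atTop (𝓝 0) := by
    simpa using hat.const_mul (4 * Real.pi ^ 2)
  have h1 := tendsto_evo_L2 F F' (2 * Real.pi * t) hF hb0 hbt
  have hm : ∀ k, AEStronglyMeasurable (fun x => evo G x (2 * Real.pi * t) (4 * Real.pi ^ 2 * a k))
      (volume : Measure (E n)) := by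
    intro k
    have e : (fun x => evo G x (2 * Real.pi * t) (4 * Real.pi ^ 2 * a k)) =
        fun x => evo (reg (2 * Real.pi * t) (4 * Real.pi ^ 2 * a k) G) x 0 0 :=
      funext fun x => evo_reg _ _ _ _
    rw [e]
    exact (continuous_evo_x (integrable_reg hGm hG2 _ (hb0 k)) 0).aestronglyMeasurable
  have h2 := tendstoInMeasure_of_tendsto_eLpNorm (by norm_num) hm
    (Lp.aestronglyMeasurable F') h1
  obtain ⟨ns, hns, h3⟩ := h2.exists_seq_tendsto_ae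
  filter_upwards [ae_toE h3, hv1] with x hx1 hx2 ℓ hℓ
  have h4 : Tendsto (fun i => a (ns i)) atTop (𝓝[>] 0) :=
    tendsto_nhdsWithin_iff.2 ⟨hat.comp hns.tendsto_atTop,
      Eventually.of_forall fun i => Set.mem_Ioi.2 (ha0 _)⟩
  have h5 := hℓ.comp h4
  have h6 : ((fun a => evolve g t a x) ∘ fun i => a (ns i)) =
      fun i => evo G (toE x) (2 * Real.pi * t) (4 * Real.pi ^ 2 * a (ns i)) := by
    ext i
    simp only [Function.comp]
    rw [evolve_congr hg, evolve_freq, schrReg_eq_evo]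
  rw [h6] at h5
  rw [hx2]
  exact tendsto_nhds_unique hx1 h5

lemma ConvergesStrongly.convergesAE {f g : (Fin n → ℝ) → ℂ} (h : ConvergesStrongly f g) :
    ConvergesAE f g := by
  filter_upwards [h] with x hx
  obtain ⟨u, hu, hu0, hut⟩ := hx
  refine ⟨u, Eventually.of_forall hut, ?_⟩
  rw [← hu0]
  exact (hu.tendsto 0).mono_left nhdsWithin_le_nhds

lemma countable_of_finite {T : Set ℝ} (hT0 : T ⊆ Set.Ioi 0)
    (hTf : ∀ δ > 0, (T ∩ Set.Ici δ).Finite) : T.Countable := by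
  have h1 : T = ⋃ m : ℕ, T ∩ Ici (1 / ((m : ℝ) + 1)) := by
    rw [← inter_iUnion]
    refine (inter_eq_left.2 fun s hs => ?_).symm
    have h2 : 0 < s := hT0 hs
    obtain ⟨m, hm⟩ := exists_nat_one_div_lt h2
    exact mem_iUnion.2 ⟨m, hm.le⟩
  rw [h1]
  exact countable_iUnion fun m => (hTf _ (by positivity)).countable

theorem not_both {f g : (Fin n → ℝ) → ℂ} (h : IsFourierPair f g) (hc : ConvergesAE f g)
    (hb : BlowsUpAlongSet g) : False := by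
  obtain ⟨T, hT0, hTf, hT⟩ := hb
  choose v hv using fun t : ℝ => exists_evolution_L2 h t
  have h1 := hT v fun t _ => hv t
  have h2 : ∀ᵐ x, ∀ t ∈ T, ∀ ℓ, Tendsto (fun a => evolve g t a x) (𝓝[>] 0) (𝓝 ℓ) → v t x = ℓ :=
    (ae_ball_iff (countable_of_finite hT0 hTf)).2 fun t _ => value_eq h t (hv t)
  obtain ⟨x, hx1, hx2, hx3⟩ := (h1.and (h2.and hc)).exists
  obtain ⟨u, hu1, hu2⟩ := hx3
  have h3 : 𝓝[T] (0 : ℝ) ≤ 𝓝[>] 0 := nhdsWithin_mono _ hT0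
  have h4 : ∀ᶠ t in 𝓝[T] (0 : ℝ), ‖v t x‖ < ‖f x‖ + 1 := by
    have h5 : ∀ᶠ t in 𝓝[T] (0 : ℝ), ‖u t‖ < ‖f x‖ + 1 :=
      h3 (hu2.norm.eventually (gt_mem_nhds (lt_add_one _)))
    filter_upwards [h5, h3 hu1, self_mem_nhdsWithin] with t h5 h6 h7
    rw [hx2 t h7 _ h6]
    exact h5
  exact (hx1 (‖f x‖ + 1)) (h4.mono fun t ht => not_lt.2 ht.le)

/-- from the alternative to the equivalences -/
theorem law_of {P : ((Fin n → ℝ) → ℂ) → Prop}
    (h : (∀ f g : (Fin n → ℝ) → ℂ, IsFourierPair f g → P g → ConvergesStrongly f g) ∨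
      ∃ f g : (Fin n → ℝ) → ℂ, IsFourierPair f g ∧ P g ∧ BlowsUpAlongSet g) :
    ((∀ f g : (Fin n → ℝ) → ℂ, IsFourierPair f g → P g → ConvergesAE f g) ↔
      ∀ f g : (Fin n → ℝ) → ℂ, IsFourierPair f g → P g → ConvergesStrongly f g) ∧
    ((¬ ∀ f g : (Fin n → ℝ) → ℂ, IsFourierPair f g → P g → ConvergesAE f g) ↔
      ∃ f g : (Fin n → ℝ) → ℂ, IsFourierPair f g ∧ P g ∧ BlowsUpAlongSet g) := by
  have h1 : (∃ f g : (Fin n → ℝ) → ℂ, IsFourierPair f g ∧ P g ∧ BlowsUpAlongSet g) →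
      ¬ ∀ f g : (Fin n → ℝ) → ℂ, IsFourierPair f g → P g → ConvergesAE f g := by
    rintro ⟨f, g, hfg, hg, hb⟩ hc
    exact not_both hfg (hc f g hfg hg) hb
  refine ⟨⟨fun hc => ?_, fun hs f g hfg hg => (hs f g hfg hg).convergesAE⟩, ⟨fun hc => ?_, h1⟩⟩
  · rcases h with h | h
    · exact h
    · exact absurd hc (h1 h)
  · rcases h with h | h
    · exact absurd (fun f g hfg hg => (h f g hfg hg).convergesAE) hc
    · exact h

/-- the zero-one law for a measurable weight `w ≥ 1` -/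
theorem law (w : (Fin n → ℝ) → ℝ≥0∞) (hw : Measurable w) (hw1 : ∀ ξ, 1 ≤ w ξ) :
    ((∀ f g : (Fin n → ℝ) → ℂ, IsFourierPair f g → ∫⁻ ξ, w ξ * ‖g ξ‖ₑ ^ 2 < ⊤ →
        ConvergesAE f g) ↔
      ∀ f g : (Fin n → ℝ) → ℂ, IsFourierPair f g → ∫⁻ ξ, w ξ * ‖g ξ‖ₑ ^ 2 < ⊤ →
        ConvergesStrongly f g) ∧
    ((¬ ∀ f g : (Fin n → ℝ) → ℂ, IsFourierPair f g → ∫⁻ ξ, w ξ * ‖g ξ‖ₑ ^ 2 < ⊤ →
        ConvergesAE f g) ↔
      ∃ f g : (Fin n → ℝ) → ℂ, IsFourierPair f g ∧ ∫⁻ ξ, w ξ * ‖g ξ‖ₑ ^ 2 < ⊤ ∧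
        BlowsUpAlongSet g) :=
  law_of (zeroOne w hw hw1)

/-- the zero-one law in `H^s` -/
theorem lawH {s : ℝ} (hs : 0 ≤ s) :
    ((∀ f g : (Fin n → ℝ) → ℂ, IsFourierPair f g →
        Integrable (fun ξ => (1 + nrm ξ ^ 2) ^ s * ‖g ξ‖ ^ 2) → ConvergesAE f g) ↔
      ∀ f g : (Fin n → ℝ) → ℂ, IsFourierPair f g →
        Integrable (fun ξ => (1 + nrm ξ ^ 2) ^ s * ‖g ξ‖ ^ 2) → ConvergesStrongly f g) ∧
    ((¬ ∀ f g : (Fin n → ℝ) → ℂ, IsFourierPair f g →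
        Integrable (fun ξ => (1 + nrm ξ ^ 2) ^ s * ‖g ξ‖ ^ 2) → ConvergesAE f g) ↔
      ∃ f g : (Fin n → ℝ) → ℂ, IsFourierPair f g ∧
        Integrable (fun ξ => (1 + nrm ξ ^ 2) ^ s * ‖g ξ‖ ^ 2) ∧ BlowsUpAlongSet g) :=
  law_of (zeroOneH hs)

end Vale.Agent.P076.H791
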