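import Vale.Agent.P076.H791.Basic

/-!
# Maximal sets; failure of the maximal estimate, localised in time
-/

open MeasureTheory Complex FourierTransform Filter Topology Set
open scoped ENNReal NNReal

namespace Vale.Agent.P076.H791

variable {n : ℕ} {w : E n → ℝ≥0∞} {G H : E n → ℂ}

/-- the set of the points where the evolution is large at some time of `S` -/
def mset (G : E n → ℂ) (S : Set ℝ) (M : ℝ) : Set (E n) := {x | ∃ s ∈ S, M < ‖evo G x s 0‖}

lemma isOpen_mset (hG : Integrable G) (S : Set ℝ) (M : ℝ) : IsOpen (mset G S M) := by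
  have h1 : mset G S M = ⋃ s ∈ S, {x | M < ‖evo G x s 0‖} := by
    ext x
    simp only [mset, mem_iUnion, exists_prop, Set.mem_ofPred_eq]
  rw [h1]
  refine isOpen_biUnion fun s _ => ?_
  exact isOpen_lt continuous_const (continuous_evo_x hG s).norm

/-- the maximal estimate -/
def MP (w : E n → ℝ≥0∞) : Prop :=
  ∀ r : ℕ, ∀ ε : ℝ, 0 < ε → ∃ η : ℝ≥0∞, 0 < η ∧ ∀ G : E n → ℂ, Nice w G → En w G ≤ η →
    volume (mset G (Ioo (-(r : ℝ)) r) ε ∩ Metric.ball 0 r) ≤ ENNReal.ofReal ε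

lemma not_MP (h : ¬ MP w) : ∃ r : ℕ, ∀ δ : ℝ, 0 < δ → ∃ κ : ℝ≥0∞, 0 < κ ∧ ∀ M : ℝ, 0 < M →
    ∀ η : ℝ≥0∞, 0 < η → ∃ G : E n → ℂ, Nice w G ∧ En w G ≤ η ∧
      κ ≤ volume (mset G (Ioo 0 δ) M ∩ Metric.ball 0 r) := by
  unfold MP at h
  push Not at h
  obtain ⟨r, ε, hε, h⟩ := h
  refine ⟨r, fun δ hδ => ?_⟩
  set N : ℕ := ⌈4 * r / δ⌉₊ + 1 with hN
  have hN0 : (N : ℝ≥0∞) ≠ 0 := by simp [hN]
  refine ⟨ENNReal.ofReal ε / N, ENNReal.div_pos (by simpa using hε) (by simp), fun M hM η hη => ?_⟩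
  set l : ℂ := ((M / ε : ℝ) : ℂ) with hl
  have hl1 : ‖l‖ = M / ε := by
    rw [hl, Complex.norm_real, Real.norm_eq_abs, abs_of_pos (by positivity)]
  have hl0 : ‖l‖ₑ ≠ 0 := by
    rw [ne_eq, enorm_eq_zero, ← norm_eq_zero, hl1]
    positivity
  obtain ⟨G', hG', hE, hV⟩ := h (η / ‖l‖ₑ ^ 2) (ENNReal.div_pos hη.ne' (by finiteness))
  set τ : ℕ → ℝ := fun i => -r + i * (δ / 2) - δ / 4 with hτ
  set K : ℕ → E n → ℂ := fun i => sft (τ i) (fun η => l * G' η) with hK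
  have hKn : ∀ i, Nice w (K i) := fun i => (hG'.const_mul l).sft _
  have hKE : ∀ i, En w (K i) ≤ η := fun i => by
    rw [hK, En_sft, En_const_mul]
    calc ‖l‖ₑ ^ 2 * En w G' ≤ ‖l‖ₑ ^ 2 * (η / ‖l‖ₑ ^ 2) := by gcongr
      _ ≤ η := ENNReal.mul_div_le
  by_contra hcon
  push Not at hcon
  have hlt : ∀ i, volume (mset (K i) (Ioo 0 δ) M ∩ Metric.ball 0 r) < ENNReal.ofReal ε / N :=
    fun i => hcon (K i) (hKn i) (hKE i)
  have hsub : mset G' (Ioo (-(r : ℝ)) r) ε ∩ Metric.ball 0 r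
      ⊆ ⋃ i ∈ Finset.range N, (mset (K i) (Ioo 0 δ) M ∩ Metric.ball 0 r) := by
    rintro x ⟨⟨s, hs, hx⟩, hxb⟩
    set i : ℕ := ⌊(s + r) / (δ / 2)⌋₊ with hi
    have h0 : 0 ≤ (s + r) / (δ / 2) := div_nonneg (by linarith [hs.1]) (by positivity)
    have h1 : (i : ℝ) ≤ (s + r) / (δ / 2) := Nat.floor_le h0
    have h2 : (s + r) / (δ / 2) < i + 1 := Nat.lt_floor_add_one _
    rw [le_div_iff₀ (by positivity)] at h1
    rw [div_lt_iff₀ (by positivity)] at h2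
    have h3 : i < N := by
      rw [hN, Nat.lt_add_one_iff]
      have h4 : (i : ℝ) ≤ (⌈4 * r / δ⌉₊ : ℝ) := by
        refine le_trans ?_ (Nat.le_ceil _)
        rw [le_div_iff₀ hδ]
        linarith [hs.2]
      exact_mod_cast h4
    simp only [mem_iUnion]
    refine ⟨i, Finset.mem_range.2 h3, ⟨s - τ i, ⟨?_, ?_⟩, ?_⟩, hxb⟩
    · simp only [hτ]
      linarith
    · simp only [hτ]
      linarith
    · simp only [hK]
      rw [evo_sft, sub_add_cancel, evo_const_mul', norm_mul, hl1]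
      rw [div_mul_eq_mul_div, lt_div_iff₀ hε]
      exact mul_lt_mul_of_pos_left hx hM
  have hfin : volume (mset G' (Ioo (-(r : ℝ)) r) ε ∩ Metric.ball 0 r) ≤ ENNReal.ofReal ε := by
    calc volume (mset G' (Ioo (-(r : ℝ)) r) ε ∩ Metric.ball 0 r)
        ≤ volume (⋃ i ∈ Finset.range N, (mset (K i) (Ioo 0 δ) M ∩ Metric.ball 0 r)) :=
          measure_mono hsub
      _ ≤ ∑ i ∈ Finset.range N, volume (mset (K i) (Ioo 0 δ) M ∩ Metric.ball 0 r) :=
          measure_biUnion_finset_le _ _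
      _ ≤ ∑ _i ∈ Finset.range N, ENNReal.ofReal ε / N := Finset.sum_le_sum fun i _ => (hlt i).le
      _ = N * (ENNReal.ofReal ε / N) := by simp
      _ ≤ ENNReal.ofReal ε := ENNReal.mul_div_le
  exact absurd hV (not_lt.2 hfin)

/-! ### superposition of translates -/

/-- superposition of translates -/
noncomputable def sup {J : ℕ} (c : Fin J → ℕ) (y : Fin J → E n) (G : E n → ℂ) (η : E n) : ℂ :=
  ∑ i, (c i : ℂ) * trl (y i) G η

lemma norm_sup_le {J : ℕ} (c : Fin J → ℕ) {K : ℕ} (hc : ∀ i, c i ≤ K) (y : Fin J → E n)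
    (G : E n → ℂ) (η : E n) : ‖sup c y G η‖ ≤ (J * K : ℕ) * ‖G η‖ := by
  unfold sup
  refine (norm_sum_le _ _).trans ?_
  have h1 : ∀ i ∈ Finset.univ, ‖(c i : ℂ) * trl (y i) G η‖ ≤ K * ‖G η‖ := fun i _ => by
    rw [norm_mul, norm_trl, Complex.norm_natCast]
    gcongr
    exact_mod_cast hc i
  refine (Finset.sum_le_sum h1).trans ?_
  rw [Finset.sum_const, Finset.card_univ, Fintype.card_fin, nsmul_eq_mul]
  push_cast
  rw [mul_assoc]

lemma measurable_sup {J : ℕ} (c : Fin J → ℕ) (y : Fin J → E n) (hG : Measurable G) :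
    Measurable (sup c y G) := by
  unfold sup
  refine Finset.measurable_sum _ fun i _ => ?_
  unfold trl
  fun_prop

lemma En_sup_le {J : ℕ} (c : Fin J → ℕ) {K : ℕ} (hc : ∀ i, c i ≤ K) (y : Fin J → E n) :
    En w (sup c y G) ≤ ((J * K : ℕ) : ℝ≥0∞) ^ 2 * En w G := by
  unfold En
  rw [← lintegral_const_mul' _ _ (by finiteness)]
  refine lintegral_mono fun η => ?_
  have h1 : ‖sup c y G η‖ₑ ≤ ((J * K : ℕ) : ℝ≥0∞) * ‖G η‖ₑ := by
    rw [← ofReal_norm, ← ofReal_norm, ← ENNReal.ofReal_natCast,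
      ← ENNReal.ofReal_mul (Nat.cast_nonneg _)]
    exact ENNReal.ofReal_le_ofReal (norm_sup_le c hc y G η)
  calc w η * ‖sup c y G η‖ₑ ^ 2 ≤ w η * (((J * K : ℕ) : ℝ≥0∞) * ‖G η‖ₑ) ^ 2 := by gcongr
    _ = ((J * K : ℕ) : ℝ≥0∞) ^ 2 * (w η * ‖G η‖ₑ ^ 2) := by ring

lemma Nice.sup (h : Nice w G) {J : ℕ} (c : Fin J → ℕ) {K : ℕ} (hc : ∀ i, c i ≤ K)
    (y : Fin J → E n) : Nice w (sup c y G) where
  meas := measurable_sup c y h.meas
  bdd := by
    obtain ⟨b, hb⟩ := h.bdd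
    exact ⟨(J * K : ℕ) * b, fun η => (norm_sup_le c hc y G η).trans
      (mul_le_mul_of_nonneg_left (hb η) (Nat.cast_nonneg _))⟩
  supp := by
    obtain ⟨R, hR⟩ := h.supp
    refine ⟨R, fun η h => hR η fun h' => h ?_⟩
    have := norm_sup_le c hc y G η
    rw [h', norm_zero, mul_zero] at this
    exact norm_le_zero_iff.1 this
  en := by
    refine (En_sup_le c hc y).trans_lt ?_
    have := h.en
    finiteness

lemma evo_sup (h : Nice w G) {J : ℕ} (c : Fin J → ℕ) (y : Fin J → E n) (x : E n) (s : ℝ) :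
    evo (sup c y G) x s 0 = ∑ i, (c i : ℂ) * evo G (x - y i) s 0 := by
  have h1 : ∀ i, evo G (x - y i) s 0 = evo (trl (y i) G) x s 0 := fun i => (evo_trl _ _ _ _ _).symm
  simp_rw [h1, evo_eq, ← integral_const_mul]
  rw [← integral_finsetSum]
  · refine integral_congr_ae (Eventually.of_forall fun η => ?_)
    simp only [sup]
    rw [Finset.mul_sum]
    refine Finset.sum_congr rfl fun i _ => ?_
    ring
  · intro i _
    exact (integrable_ph_mul (h.trl (y i)).integrable x s le_rfl).const_mul _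

end Vale.Agent.P076.H791
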