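import Vale.Agent.P076.H791.Neg1
import Vale.Agent.P076.H791.Fill

/-!
# One step of the gliding hump
-/

open MeasureTheory Complex FourierTransform Filter Topology Set
open scoped ENNReal NNReal

namespace Vale.Agent.P076.H791

variable {n : ℕ} {w : E n → ℝ≥0∞} {G H : E n → ℂ}

/-- the localised failure of the maximal estimate -/
def Bad (w : E n → ℝ≥0∞) (r : ℕ) : Prop :=
  ∀ δ : ℝ, 0 < δ → ∃ κ : ℝ≥0∞, 0 < κ ∧ ∀ M : ℝ, 0 < M →
    ∀ η : ℝ≥0∞, 0 < η → ∃ G : E n → ℂ, Nice w G ∧ En w G ≤ η ∧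
      κ ≤ volume (mset G (Ioo 0 δ) M ∩ Metric.ball 0 r)

lemma Bad.step3 {r : ℕ} (h : Bad w r) {G0 : E n → ℂ} (h0 : Nice w G0) (k : ℕ)
    {δ M : ℝ} (hδ : 0 < δ) (hM : 0 < M) {η ε : ℝ≥0∞} (hη : 0 < η) (hε : 0 < ε) :
    ∃ H : E n → ℂ, Nice w H ∧ En w H ≤ η ∧
      volume (Metric.ball 0 k \ mset (G0 + H) (Ioo 0 δ) M) ≤ ε := by
  obtain ⟨κ, hκ, hb⟩ := h δ hδ
  have hε2 : 0 < ε / 2 := ENNReal.half_pos hε.ne'
  obtain ⟨J, hJ⟩ := exists_fill (n := n) hκ hε2 r k
  obtain ⟨K, hK0, hK⟩ : ∃ K : ℕ, 0 < K ∧ volume (Metric.ball (0 : E n) k) / K ≤ ε / 2 := by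
    have hv : volume (Metric.ball (0 : E n) k) ≠ ⊤ := measure_ball_lt_top.ne
    obtain ⟨K, hK⟩ := ENNReal.exists_nat_gt (ENNReal.div_lt_top hv hε2.ne').ne
    refine ⟨K + 1, Nat.succ_pos _, ?_⟩
    refine ENNReal.div_le_of_le_mul ?_
    have h1 : volume (Metric.ball (0 : E n) k) / (ε / 2) ≤ ((K + 1 : ℕ) : ℝ≥0∞) :=
      hK.le.trans (by exact_mod_cast Nat.le_succ K)
    by_cases ht : ε / 2 = ⊤
    · rw [ht, ENNReal.top_mul (by simp)]
      exact le_top
    · rw [ENNReal.div_le_iff hε2.ne' ht] at h1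
      rwa [mul_comm]
  set q : ℝ≥0∞ := ((J * K : ℕ) : ℝ≥0∞) ^ 2 with hq
  obtain ⟨G, hG, hGE, hGV⟩ := hb (2 * M) (by positivity) (η / (q + 1))
    (ENNReal.div_pos hη.ne' (by finiteness))
  set A : Set (E n) := mset G (Ioo 0 δ) (2 * M) ∩ Metric.ball 0 r with hA
  have hAm : IsOpen A := (isOpen_mset hG.integrable _ _).inter Metric.isOpen_ball
  obtain ⟨y, hy⟩ := hJ A hAm.measurableSet inter_subset_right hGV
  set Z : Set (E n) := {x | x ∈ Metric.ball (0 : E n) k ∧ ∃ i, x - y i ∈ A} with hZ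
  have hZm : MeasurableSet Z := by
    have : Z = Metric.ball (0 : E n) k ∩ ⋃ i, (fun x => x - y i) ⁻¹' A := by
      ext x
      simp only [hZ, mem_inter_iff, mem_iUnion, mem_preimage, Set.mem_ofPred_eq]
    rw [this]
    refine Metric.isOpen_ball.measurableSet.inter (MeasurableSet.iUnion fun i => ?_)
    exact (hAm.preimage (continuous_id.sub continuous_const)).measurableSet
  obtain ⟨c, hc⟩ := exists_coef (volume : Measure (E n)) hK0 hZm (M := M)
    (b := fun (s : Ioo (0 : ℝ) δ) x => evo G0 x s 0)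
    (v := fun (i : Fin J) (s : Ioo (0 : ℝ) δ) x => evo G (x - y i) s 0) (by
      rintro x ⟨_, i, ⟨s, hs, hsx⟩, _⟩
      exact ⟨i, ⟨s, hs⟩, hsx⟩) (by
      intro c
      have h1 : {x | x ∈ Z ∧ ∀ s : Ioo (0 : ℝ) δ, ‖evo G0 x s 0 +
          ∑ i, (((c i : Fin K) : ℕ) : ℂ) * evo G (x - y i) s 0‖ ≤ M}
          = Z ∩ ⋂ s : Ioo (0 : ℝ) δ, {x | ‖evo G0 x s 0 +
          ∑ i, (((c i : Fin K) : ℕ) : ℂ) * evo G (x - y i) s 0‖ ≤ M} := by
        ext x
        simp only [mem_inter_iff, mem_iInter, Set.mem_ofPred_eq]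
      rw [h1]
      refine hZm.inter (IsClosed.measurableSet (isClosed_iInter fun s => ?_))
      refine isClosed_le (Continuous.norm ?_) continuous_const
      refine (continuous_evo_x h0.integrable _).add (continuous_finsetSum _ fun i _ => ?_)
      refine continuous_const.mul ?_
      exact (continuous_evo_x hG.integrable (s : ℝ)).comp (continuous_id.sub continuous_const))
  set d : Fin J → ℕ := fun i => (c i : ℕ) with hd
  have hdK : ∀ i, d i ≤ K := fun i => (c i).2.le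
  refine ⟨sup d y G, hG.sup d hdK y, ?_, ?_⟩
  · refine (En_sup_le d hdK y).trans ?_
    calc ((J * K : ℕ) : ℝ≥0∞) ^ 2 * En w G ≤ (q + 1) * (η / (q + 1)) := by
          gcongr
          exact le_self_add
      _ ≤ η := ENNReal.mul_div_le
  · have hsub : Metric.ball 0 k \ mset (G0 + sup d y G) (Ioo 0 δ) M
        ⊆ {x ∈ Metric.ball (0 : E n) k | ∀ i, x - y i ∉ A} ∪
          {x | x ∈ Z ∧ ∀ s : Ioo (0 : ℝ) δ, ‖evo G0 x s 0 +
          ∑ i, (((c i : Fin K) : ℕ) : ℂ) * evo G (x - y i) s 0‖ ≤ M} := by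
      rintro x ⟨hxb, hx⟩
      by_cases hxi : ∀ i, x - y i ∉ A
      · exact Or.inl ⟨hxb, hxi⟩
      · right
        push Not at hxi
        refine ⟨⟨hxb, hxi⟩, fun s => ?_⟩
        by_contra hcon
        refine hx ⟨s, s.2, ?_⟩
        rw [evo_add' h0.integrable (hG.sup d hdK y).integrable x s le_rfl, evo_sup hG]
        exact not_le.1 hcon
    calc volume (Metric.ball 0 k \ mset (G0 + sup d y G) (Ioo 0 δ) M)
        ≤ ε / 2 + volume Z / K := (measure_mono hsub).trans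
          ((measure_union_le _ _).trans (add_le_add hy hc))
      _ ≤ ε / 2 + ε / 2 := by
          refine add_le_add le_rfl (le_trans ?_ hK)
          gcongr
          exact fun x hx => hx.1
      _ = ε := ENNReal.add_halves ε

lemma exists_finite_times {G : E n → ℂ} (hG : Integrable G) (k : ℕ) {δ M : ℝ}
    {ε : ℝ≥0∞} (hε : 0 < ε)
    (h : volume (Metric.ball 0 k \ mset G (Ioo 0 δ) M) ≤ ε) :
    ∃ F : Finset ℝ, (∀ s ∈ F, 0 < s ∧ s < δ) ∧
      volume (Metric.ball 0 k \ mset G (F : Set ℝ) M) ≤ 2 * ε := by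
  set A : Set (E n) := mset G (Ioo 0 δ) M ∩ Metric.ball 0 k with hA
  have hAo : IsOpen A := (isOpen_mset hG _ _).inter Metric.isOpen_ball
  have hAv : volume A ≠ ⊤ :=
    ((measure_mono inter_subset_right).trans_lt measure_ball_lt_top).ne
  obtain ⟨K, hKA, hKc, hKv⟩ := hAo.measurableSet.exists_isCompact_sdiff_lt hAv hε.ne'
  obtain ⟨F, hF⟩ := hKc.elim_finite_subcover (fun s : Ioo (0 : ℝ) δ => {x : E n | M < ‖evo G x s 0‖})
    (fun s => isOpen_lt continuous_const (continuous_evo_x hG s).norm) (fun x hx => by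
      obtain ⟨⟨s, hs, hsx⟩, _⟩ := hKA hx
      exact mem_iUnion.2 ⟨⟨s, hs⟩, hsx⟩)
  refine ⟨F.map (Function.Embedding.subtype _), fun s hs => ?_, ?_⟩
  · obtain ⟨s', _, rfl⟩ := Finset.mem_map.1 hs
    exact s'.2
  · have hsub : Metric.ball 0 k \ mset G ((F.map (Function.Embedding.subtype _) : Finset ℝ) : Set ℝ) M
        ⊆ (Metric.ball 0 k \ mset G (Ioo 0 δ) M) ∪ (A \ K) := by
      rintro x ⟨hxb, hx⟩
      by_cases hxm : x ∈ mset G (Ioo 0 δ) M
      · refine Or.inr ⟨⟨hxm, hxb⟩, fun hxK => hx ?_⟩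
        have := hF hxK
        simp only [mem_iUnion] at this
        obtain ⟨s, hsF, hsx⟩ := this
        exact ⟨s, by simpa using ⟨s.2, hsF⟩, hsx⟩
      · exact Or.inl ⟨hxb, hxm⟩
    calc volume (Metric.ball 0 k \ mset G ((F.map (Function.Embedding.subtype _) : Finset ℝ) : Set ℝ) M)
        ≤ ε + ε := (measure_mono hsub).trans ((measure_union_le _ _).trans (add_le_add h hKv.le))
      _ = 2 * ε := (two_mul ε).symm

end Vale.Agent.P076.H791
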