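import Vale.Agent.P076.H791.Neg2

/-!
# The gliding hump
-/

open MeasureTheory Complex FourierTransform Filter Topology Set
open scoped ENNReal NNReal

namespace Vale.Agent.P076.H791

variable {n : ℕ} {w : E n → ℝ≥0∞} {G H : E n → ℂ}

/-- `2⁻ᵏ` -/
noncomputable def th (k : ℕ) : ℝ≥0∞ := ENNReal.ofReal ((2 : ℝ)⁻¹ ^ k)

lemma th_pos (k : ℕ) : 0 < th k := by
  unfold th
  exact ENNReal.ofReal_pos.2 (by positivity)

lemma th_ne_top (k : ℕ) : th k ≠ ⊤ := ENNReal.ofReal_ne_top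

lemma th_le_one (k : ℕ) : th k ≤ 1 := by
  unfold th
  rw [ENNReal.ofReal_le_one]
  exact pow_le_one₀ (by norm_num) (by norm_num)

lemma summable_geo : Summable fun k : ℕ => (2 : ℝ)⁻¹ ^ k :=
  summable_geometric_of_lt_one (by norm_num) (by norm_num)

lemma tsum_th : ∑' k, th k ≠ ⊤ := summable_geo.tsum_ofReal_ne_top

/-- a state of the construction -/
structure St (w : E n → ℝ≥0∞) where
  G : E n → ℂ
  nice : Nice w G
  A : Finset ℝ
  F : Finset ℝ

/-- one step -/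
def Step (k : ℕ) (S S' : St w) : Prop :=
  Nice w (S'.G - S.G) ∧ En w (S'.G - S.G) ≤ (th k ^ 2 * th k) / (1 + S.A.card) ∧
    S'.A = S.A ∪ S'.F ∧ (∀ s ∈ S'.F, 0 < s ∧ s < 1 / ((k : ℝ) + 1)) ∧
    volume (Metric.ball 0 k \ mset S'.G (S'.F : Set ℝ) (k + 1)) ≤ th k

lemma exists_step (hw : Measurable w) {r : ℕ} (hB : Bad w r) (k : ℕ) (S : St w) :
    ∃ S' : St w, Step k S S' := by
  have h0 := th_pos k
  have h1 := th_ne_top k
  obtain ⟨H, hH, hHE, hHV⟩ := hB.step3 S.nice k (δ := 1 / ((k : ℝ) + 1)) (M := (k : ℝ) + 1)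
    (by positivity) (by positivity) (η := (th k ^ 2 * th k) / (1 + S.A.card)) (ε := th k / 2)
    (ENNReal.div_pos (by positivity) (by finiteness)) (ENNReal.half_pos h0.ne')
  obtain ⟨F, hF, hFV⟩ := exists_finite_times (S.nice.add hw hH).integrable k
    (ENNReal.half_pos h0.ne') hHV
  refine ⟨⟨S.G + H, S.nice.add hw hH, S.A ∪ F, F⟩, ?_, ?_, rfl, hF, ?_⟩
  · simpa only [add_sub_cancel_left] using hH
  · simpa only [add_sub_cancel_left] using hHE
  · refine hFV.trans ?_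
    rw [ENNReal.mul_div_cancel (by norm_num) (by norm_num)]

theorem neg_data (hw : Measurable w) (hw1 : ∀ η, 1 ≤ w η) (h : ¬ MP w) :
    ∃ H : ℕ → E n → ℂ, (∀ k, Nice w (H k)) ∧ (∀ k, En w (H k) ≤ th k ^ 2 * th k) ∧
    ∃ T : Set ℝ, T ⊆ Ioi 0 ∧ (∀ δ > 0, (T ∩ Ici δ).Finite) ∧
      ∀ᵐ x, ∀ v : ℝ → ℂ, (∀ s ∈ T, HasSum (fun k => evo (H k) x s 0) (v s)) →
        ∀ M : ℝ, ∃ᶠ s in 𝓝[T] (0 : ℝ), M < ‖v s‖ := by
  obtain ⟨r, hB⟩ := not_MP h
  choose next hnext using fun k (S : St w) => exists_step hw hB k S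
  set S : ℕ → St w := fun k => Nat.rec ⟨0, nice_zero, ∅, ∅⟩ (fun k s => next k s) k with hS
  have hS0 : S 0 = ⟨0, nice_zero, ∅, ∅⟩ := rfl
  have hstep : ∀ k, Step k (S k) (S (k + 1)) := fun k => hnext k (S k)
  set H : ℕ → E n → ℂ := fun k => (S (k + 1)).G - (S k).G with hH
  have hHn : ∀ k, Nice w (H k) := fun k => (hstep k).1
  have hHE : ∀ k, En w (H k) ≤ (th k ^ 2 * th k) / (1 + (S k).A.card) := fun k => (hstep k).2.1
  have hG : ∀ k, (S (k + 1)).G = (S k).G + H k := fun k => by simp only [hH]; abel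
  have hevo : ∀ (x : E n) (s : ℝ) (m : ℕ),
      evo (S m).G x s 0 = ∑ k ∈ Finset.range m, evo (H k) x s 0 := by
    intro x s m
    induction m with
    | zero => rw [hS0, Finset.sum_range_zero, evo_zero_fun]
    | succ m ih =>
      rw [Finset.sum_range_succ, ← ih, hG, evo_add' (S m).nice.integrable (hHn m).integrable x s le_rfl]
  have hAmono : Monotone fun k => (S k).A := by
    refine monotone_nat_of_le_succ fun k => ?_
    rw [(hstep k).2.2.1]
    exact Finset.subset_union_left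
  have hFA : ∀ k, (S (k + 1)).F ⊆ (S (k + 1)).A := fun k => by
    rw [(hstep k).2.2.1]
    exact Finset.subset_union_right
  refine ⟨H, hHn, fun k => (hHE k).trans ?_, ⋃ k, ((S (k + 1)).F : Set ℝ), ?_, ?_, ?_⟩
  · exact ENNReal.div_le_of_le_mul (le_mul_of_one_le_right' (by simp))
  · refine iUnion_subset fun k s hs => ?_
    exact ((hstep k).2.2.2.1 s hs).1
  · intro δ hδ
    refine ((Finset.range ⌈1 / δ⌉₊).finite_toSet.biUnion
      (t := fun k => ((S (k + 1)).F : Set ℝ)) (fun k _ => Finset.finite_toSet _)).subset ?_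
    rintro s ⟨hs, hsδ⟩
    obtain ⟨k, hk⟩ := mem_iUnion.1 hs
    refine mem_biUnion (x := k) ?_ hk
    have h1 := ((hstep k).2.2.2.1 s hk).2
    have h2 : (k : ℝ) + 1 < 1 / δ := by
      rw [lt_div_iff₀ (by positivity)] at h1
      rw [lt_div_iff₀ hδ]
      have : δ ≤ s := hsδ
      nlinarith [(Nat.cast_nonneg k : (0 : ℝ) ≤ k)]
    have h3 : (k : ℝ) < ⌈1 / δ⌉₊ := by linarith [Nat.le_ceil (1 / δ)]
    simpa using (by exact_mod_cast h3 : k < ⌈1 / δ⌉₊)
  · have hE1 : ∑' k : ℕ, volume (Metric.ball 0 k \ mset (S (k + 1)).G ((S (k + 1)).F : Set ℝ) (k + 1)) ≠ ⊤ :=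
      ne_top_of_le_ne_top tsum_th (ENNReal.tsum_le_tsum fun k => (hstep k).2.2.2.2)
    have hE2 : ∑' k : ℕ, volume (mset (H k) ((S k).A : Set ℝ) ((2 : ℝ)⁻¹ ^ k)) ≠ ⊤ := by
      refine ne_top_of_le_ne_top tsum_th (ENNReal.tsum_le_tsum fun k => ?_)
      have h1 : mset (H k) ((S k).A : Set ℝ) ((2 : ℝ)⁻¹ ^ k)
          ⊆ ⋃ s ∈ (S k).A, {x | (2 : ℝ)⁻¹ ^ k < ‖evo (H k) x s 0‖} := by
        rintro x ⟨s, hs, hsx⟩
        simp only [mem_iUnion]
        exact ⟨s, hs, hsx⟩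
      calc volume (mset (H k) ((S k).A : Set ℝ) ((2 : ℝ)⁻¹ ^ k))
          ≤ ∑ s ∈ (S k).A, volume {x | (2 : ℝ)⁻¹ ^ k < ‖evo (H k) x s 0‖} :=
            (measure_mono h1).trans (measure_biUnion_finset_le _ _)
        _ ≤ ∑ _s ∈ (S k).A, En w (H k) / th k ^ 2 := Finset.sum_le_sum fun s _ =>
            volume_evo_gt hw1 (hHn k) s (by positivity)
        _ = ((S k).A.card * En w (H k)) / th k ^ 2 := by
            rw [Finset.sum_const, nsmul_eq_mul, mul_div_assoc]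
        _ ≤ ((1 + (S k).A.card) * ((th k ^ 2 * th k) / (1 + (S k).A.card))) / th k ^ 2 := by
            gcongr
            · exact le_add_self
            · exact hHE k
        _ ≤ (th k ^ 2 * th k) / th k ^ 2 := ENNReal.div_le_div_right ENNReal.mul_div_le _
        _ ≤ th k := ENNReal.div_le_of_le_mul' le_rfl
    filter_upwards [ae_eventually_notMem hE1, ae_eventually_notMem hE2] with x hx1 hx2 v hv M
    obtain ⟨k₀, hk₀⟩ := eventually_atTop.1 (hx1.and hx2)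
    rw [(Metric.nhdsWithin_basis_ball).frequently_iff]
    intro ε hε
    obtain ⟨k, hk1, hk2, hk3, hk4⟩ : ∃ k : ℕ, k₀ ≤ k ∧ ‖x‖ < k ∧ M + 1 < k ∧ 1 / ε < k := by
      obtain ⟨k, hk⟩ := exists_nat_gt (max (max (k₀ : ℝ) ‖x‖) (max (M + 1) (1 / ε)))
      simp only [max_lt_iff] at hk
      exact ⟨k, by exact_mod_cast hk.1.1.le, hk.1.2, hk.2.1, hk.2.2⟩
    have hx : x ∈ mset (S (k + 1)).G ((S (k + 1)).F : Set ℝ) (k + 1) := by
      by_contra hcon
      exact (hk₀ k hk1).1 ⟨by simpa using hk2, hcon⟩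
    obtain ⟨s, hs, hsx⟩ := hx
    have hsT : s ∈ ⋃ k, ((S (k + 1)).F : Set ℝ) := mem_iUnion.2 ⟨k, hs⟩
    have hs2 := (hstep k).2.2.2.1 s hs
    refine ⟨s, ⟨?_, hsT⟩, ?_⟩
    · rw [mem_ball_zero_iff, Real.norm_eq_abs, abs_of_pos hs2.1]
      refine hs2.2.trans ?_
      rw [div_lt_iff₀ hε] at hk4
      rw [div_lt_iff₀ (by positivity)]
      nlinarith
    · have h1 := (hasSum_nat_add_iff' (k + 1)).2 (hv s hsT)
      rw [← hevo] at h1
      have h2 : HasSum (fun j => (2 : ℝ)⁻¹ ^ (j + (k + 1))) ((1 - 2⁻¹)⁻¹ * 2⁻¹ ^ (k + 1)) := by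
        simp_rw [pow_add]
        exact (hasSum_geometric_of_lt_one (by norm_num) (by norm_num)).mul_right _
      have h3 : ‖v s - evo (S (k + 1)).G x s 0‖ ≤ (1 - 2⁻¹)⁻¹ * 2⁻¹ ^ (k + 1) := by
        refine h1.norm_le_of_bounded h2 fun j => ?_
        have h4 : x ∉ mset (H (j + (k + 1))) ((S (j + (k + 1))).A : Set ℝ) ((2 : ℝ)⁻¹ ^ (j + (k + 1))) :=
          (hk₀ (j + (k + 1)) (by omega)).2
        by_contra hcon
        refine h4 ⟨s, ?_, not_le.1 hcon⟩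
        exact hAmono (show k + 1 ≤ j + (k + 1) by omega) (hFA k hs)
      have h5 : ((1 : ℝ) - 2⁻¹)⁻¹ * 2⁻¹ ^ (k + 1) ≤ 1 := by
        rw [pow_succ]
        have : (2 : ℝ)⁻¹ ^ k ≤ 1 := pow_le_one₀ (by norm_num) (by norm_num)
        norm_num
        linarith
      have h6 : ‖evo (S (k + 1)).G x s 0‖ ≤ ‖v s‖ + ‖v s - evo (S (k + 1)).G x s 0‖ := by
        have := norm_sub_le (v s) (v s - evo (S (k + 1)).G x s 0)
        rwa [sub_sub_cancel] at this
      linarith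

end Vale.Agent.P076.H791
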