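import Vale.Agent.P076.H791.Pois1
import Vale.Agent.P076.H791.Basic

/-!
# The regularised evolution is a Poisson average in time of the evolution
-/

open MeasureTheory Complex FourierTransform Set Filter

namespace Vale.Agent.P076.H791

variable {n : ℕ}

lemma continuous_ph_prod (x : E n) (s : ℝ) :
    Continuous fun p : E n × ℝ => ph x (s + p.2) 0 p.1 := by
  unfold ph
  fun_prop

lemma ph_add (x : E n) (s τ : ℝ) (η : E n) :
    ph x (s + τ) 0 η = cexp (-(2 * Real.pi * I * τ * ((‖η‖ ^ 2 : ℝ) : ℂ))) * ph x s 0 η := by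
  unfold ph
  rw [← Complex.exp_add]
  congr 1
  push_cast
  ring

lemma ph_reg (x : E n) (s b : ℝ) (η : E n) :
    ph x s (2 * Real.pi * b) η = cexp (-(2 * Real.pi * b * ((‖η‖ ^ 2 : ℝ) : ℂ))) * ph x s 0 η := by
  unfold ph
  rw [← Complex.exp_add]
  congr 1
  push_cast
  ring

theorem evo_avg {G : E n → ℂ} (hG : Integrable G) (x : E n) (s : ℝ) {b : ℝ} (hb : 0 < b) :
    evo G x s (2 * Real.pi * b) =
      ∫ τ : ℝ, ((b / (Real.pi * (b ^ 2 + τ ^ 2)) : ℝ) : ℂ) * evo G x (s + τ) 0 := by
  set P : ℝ → ℂ := fun τ => ((b / (Real.pi * (b ^ 2 + τ ^ 2)) : ℝ) : ℂ) with hP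
  have hPi : Integrable P := (integrable_poisson hb).ofReal
  have h1 : Integrable (fun z : E n × ℝ => G z.1 * P z.2) (volume.prod volume) := hG.mul_prod hPi
  have h2 : Integrable (fun z : E n × ℝ => ph x (s + z.2) 0 z.1 * (G z.1 * P z.2))
      (volume.prod volume) :=
    h1.bdd_mul (continuous_ph_prod x s).aestronglyMeasurable
      (Eventually.of_forall fun z => norm_ph_le x (s + z.2) le_rfl z.1)
  have h3 := integral_integral_swap (f := fun (η : E n) (τ : ℝ) =>
    ph x (s + τ) 0 η * (G η * P τ)) h2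
  have h4 : ∀ η : E n, ∫ τ : ℝ, ph x (s + τ) 0 η * (G η * P τ)
      = ph x s (2 * Real.pi * b) η * G η := by
    intro η
    have h5 := poisson_exp (lam := ‖η‖ ^ 2) hb (by positivity)
    rw [ph_reg, ← h5, ← integral_mul_const, ← integral_mul_const]
    refine integral_congr_ae (Eventually.of_forall fun τ => ?_)
    simp only [hP]
    rw [ph_add]
    ring
  have h6 : ∀ τ : ℝ, ∫ η : E n, ph x (s + τ) 0 η * (G η * P τ) = P τ * evo G x (s + τ) 0 := by
    intro τ
    rw [evo_eq, ← integral_const_mul]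
    refine integral_congr_ae (Eventually.of_forall fun η => ?_)
    simp only
    ring
  rw [evo_eq]
  simp_rw [h4, h6] at h3
  exact h3

end Vale.Agent.P076.H791
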