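import Vale.Agent.P076.MathlibUsed

/-!
# The Poisson kernel
-/

open MeasureTheory Complex FourierTransform Set

namespace Vale.Agent.P076.H791

lemma poisson_eq {b : ℝ} (hb : 0 < b) (τ : ℝ) :
    b / (Real.pi * (b ^ 2 + τ ^ 2)) = (Real.pi * b)⁻¹ * (1 + (τ / b) ^ 2)⁻¹ := by
  have hp := Real.pi_pos
  have h1 : b ^ 2 + τ ^ 2 ≠ 0 := by positivity
  have h2 : 1 + (τ / b) ^ 2 ≠ 0 := by positivity
  field_simp

theorem integrable_poisson {b : ℝ} (hb : 0 < b) :
    Integrable fun τ : ℝ => b / (Real.pi * (b ^ 2 + τ ^ 2)) := by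
  simp_rw [poisson_eq hb]
  exact (integrable_inv_one_add_sq.comp_div hb.ne').const_mul _

theorem integral_poisson {b : ℝ} (hb : 0 < b) :
    ∫ τ, b / (Real.pi * (b ^ 2 + τ ^ 2)) = 1 := by
  have hp := Real.pi_pos
  simp_rw [poisson_eq hb]
  rw [integral_const_mul, Measure.integral_comp_div (fun x : ℝ => (1 + x ^ 2)⁻¹) b,
    integral_univ_inv_one_add_sq, abs_of_pos hb, smul_eq_mul]
  field_simp

/-- the two-sided exponential -/
noncomputable def tse (b : ℝ) (v : ℝ) : ℂ := cexp (-((2 * Real.pi * b * |v| : ℝ) : ℂ))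

lemma continuous_tse (b : ℝ) : Continuous (tse b) := by
  unfold tse
  fun_prop

lemma tse_int {b : ℝ} (hb : 0 < b) (τ : ℝ) :
    IntegrableOn (fun v : ℝ => cexp (((-2 * Real.pi * v * τ : ℝ) : ℂ) * I) * tse b v) (Ioi 0) ∧
    IntegrableOn (fun v : ℝ => cexp (((-2 * Real.pi * v * τ : ℝ) : ℂ) * I) * tse b v) (Iic 0) ∧
    ∫ v : ℝ in Ioi 0, cexp (((-2 * Real.pi * v * τ : ℝ) : ℂ) * I) * tse b v
      = (2 * Real.pi * (b + τ * I))⁻¹ ∧
    ∫ v : ℝ in Iic 0, cexp (((-2 * Real.pi * v * τ : ℝ) : ℂ) * I) * tse b v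
      = (2 * Real.pi * (b - τ * I))⁻¹ := by
  have hp := Real.pi_pos
  have e1 : ∀ v ∈ Ioi (0 : ℝ), cexp (((-2 * Real.pi * v * τ : ℝ) : ℂ) * I) * tse b v
      = cexp ((-(2 * Real.pi * (b + τ * I))) * v) := by
    intro v hv
    have hv' : 0 < v := hv
    rw [tse, ← Complex.exp_add, abs_of_pos hv']
    congr 1
    push_cast
    ring
  have e2 : ∀ v ∈ Iic (0 : ℝ), cexp (((-2 * Real.pi * v * τ : ℝ) : ℂ) * I) * tse b v
      = cexp ((2 * Real.pi * (b - τ * I)) * v) := by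
    intro v hv
    rw [tse, ← Complex.exp_add, abs_of_nonpos hv]
    congr 1
    push_cast
    ring
  have r1 : (-(2 * Real.pi * ((b : ℂ) + τ * I))).re < 0 := by
    simp
    positivity
  have r2 : 0 < (2 * Real.pi * ((b : ℂ) - τ * I)).re := by
    simp
    positivity
  refine ⟨?_, ?_, ?_, ?_⟩
  · exact (integrableOn_exp_mul_complex_Ioi r1 0).congr_fun (fun v hv => (e1 v hv).symm)
      measurableSet_Ioi
  · exact (integrableOn_exp_mul_complex_Iic r2 0).congr_fun (fun v hv => (e2 v hv).symm)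
      measurableSet_Iic
  · rw [setIntegral_congr_fun measurableSet_Ioi e1, integral_exp_mul_complex_Ioi r1 0]
    simp [neg_div_neg_eq]
  · rw [setIntegral_congr_fun measurableSet_Iic e2, integral_exp_mul_complex_Iic r2 0]
    simp

lemma integrable_tse {b : ℝ} (hb : 0 < b) : Integrable (tse b) := by
  have h := tse_int hb 0
  have h1 : (fun v : ℝ => cexp (((-2 * Real.pi * v * 0 : ℝ) : ℂ) * I) * tse b v) = tse b := by
    ext v; simp
  rw [h1] at h
  rw [← integrableOn_univ, ← Iic_union_Ioi (a := (0 : ℝ))]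
  exact h.2.1.union h.1

lemma fourier_tse {b : ℝ} (hb : 0 < b) (τ : ℝ) :
    𝓕 (tse b) τ = ((b / (Real.pi * (b ^ 2 + τ ^ 2)) : ℝ) : ℂ) := by
  have hp := Real.pi_pos
  rw [Real.fourier_real_eq_integral_exp_smul]
  simp_rw [smul_eq_mul]
  obtain ⟨i1, i2, h1, h2⟩ := tse_int hb τ
  rw [← intervalIntegral.integral_Iic_add_Ioi i2 i1, h1, h2]
  have hpc : (Real.pi : ℂ) ≠ 0 := by exact_mod_cast hp.ne'
  have n1 : (b : ℂ) + τ * I ≠ 0 := by
    intro h
    have := congrArg Complex.re h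
    simp at this
    exact hb.ne' this
  have n2 : (b : ℂ) - τ * I ≠ 0 := by
    intro h
    have := congrArg Complex.re h
    simp at this
    exact hb.ne' this
  have n3 : (b : ℂ) ^ 2 + τ ^ 2 = (b + τ * I) * (b - τ * I) := by
    ring_nf
    rw [I_sq]
    ring
  push_cast
  rw [n3]
  field_simp
  ring

theorem poisson_exp {b lam : ℝ} (hb : 0 < b) (hl : 0 ≤ lam) :
    ∫ τ : ℝ, ((b / (Real.pi * (b ^ 2 + τ ^ 2)) : ℝ) : ℂ) * cexp (-(2 * Real.pi * I * τ * lam))
      = cexp (-(2 * Real.pi * b * lam)) := by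
  have h1 : Integrable (𝓕 (tse b)) := by
    have h2 : 𝓕 (tse b) = fun τ : ℝ => ((b / (Real.pi * (b ^ 2 + τ ^ 2)) : ℝ) : ℂ) :=
      funext (fourier_tse hb)
    rw [h2]
    exact (integrable_poisson hb).ofReal
  have h3 := (integrable_tse hb).fourierInv_fourier_eq h1 (v := -lam)
    (continuous_tse b).continuousAt
  rw [Real.fourierInv_eq'] at h3
  simp_rw [fourier_tse hb] at h3
  rw [tse, abs_neg, abs_of_nonneg hl] at h3
  push_cast at h3 ⊢
  rw [← h3]
  refine integral_congr_ae (Filter.Eventually.of_forall fun τ => ?_)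
  simp only [smul_eq_mul]
  rw [mul_comm]
  congr 2
  simp
  ring

end Vale.Agent.P076.H791
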