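import Vale.Agent.P076.H791.Pois

/-!
# The regularised evolution is controlled by the unregularised one
-/

open MeasureTheory Complex FourierTransform Filter Topology Set
open scoped ENNReal NNReal

namespace Vale.Agent.P076.H791

variable {n : ℕ} {w : E n → ℝ≥0∞} {G H : E n → ℂ}

lemma integrable_sq_weight {D : E n → ℂ} (hD : Integrable D) (x : E n) :
    Integrable fun σ : ℝ => (1 + σ ^ 2)⁻¹ * ‖evo D x σ 0‖ ^ 2 := by
  refine integrable_inv_one_add_sq.mul_bdd (c := (∫ η, ‖D η‖) ^ 2)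
    (((continuous_evo_s hD x).norm.pow 2).aestronglyMeasurable) (Eventually.of_forall fun σ => ?_)
  rw [norm_pow, norm_norm]
  exact pow_le_pow_left₀ (norm_nonneg _) (norm_evo_le hD x σ le_rfl) 2

lemma avg_bound {D : E n → ℂ} (hD : Integrable D) (x : E n) (s : ℝ) {a : ℝ} (ha : 0 < a)
    (ha1 : a ≤ 1) {δ : ℝ} (hδ : 0 < δ) (h1 : ∀ σ : ℝ, |σ| < |s| + 1 → ‖evo D x σ 0‖ ≤ δ)
    (h2 : ∫ σ : ℝ, (1 + σ ^ 2)⁻¹ * ‖evo D x σ 0‖ ^ 2 ≤ δ ^ 2) :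
    ‖evo D x s a‖ ≤ (1 + 4 * (1 + s ^ 2)) * δ := by
  set b : ℝ := a / (2 * Real.pi) with hb
  have hpi : 0 < Real.pi := Real.pi_pos
  have hpi3 : 3 < Real.pi := Real.pi_gt_three
  have hb0 : 0 < b := by positivity
  have hb1 : b ≤ 1 := by
    rw [hb, div_le_one (by positivity)]
    linarith
  have hab : a = 2 * Real.pi * b := by rw [hb]; field_simp
  rw [hab, evo_avg hD x s hb0]
  set v : ℝ → ℝ := fun σ => ‖evo D x σ 0‖ with hv
  have hvc : Continuous v := (continuous_evo_s hD x).norm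
  set C : ℝ := 2 * (1 + s ^ 2) / Real.pi with hC
  have hC0 : 0 ≤ C := by positivity
  have i1 := integrable_poisson hb0
  have i2 : Integrable fun σ : ℝ => (1 + σ ^ 2)⁻¹ * v σ ^ 2 := integrable_sq_weight hD x
  have i3 : Integrable fun σ : ℝ => (1 + σ ^ 2)⁻¹ * (δ + v σ ^ 2 / δ) := by
    have : (fun σ : ℝ => (1 + σ ^ 2)⁻¹ * (δ + v σ ^ 2 / δ))
        = fun σ => δ * (1 + σ ^ 2)⁻¹ + δ⁻¹ * ((1 + σ ^ 2)⁻¹ * v σ ^ 2) := by
      ext σ; field_simp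
    rw [this]
    exact (integrable_inv_one_add_sq.const_mul _).add (i2.const_mul _)
  have i4 : Integrable fun τ : ℝ => (1 + (s + τ) ^ 2)⁻¹ * (δ + v (s + τ) ^ 2 / δ) :=
    i3.comp_add_left s
  have e3 : ∫ σ : ℝ, (1 + σ ^ 2)⁻¹ * (δ + v σ ^ 2 / δ) ≤ δ * Real.pi + δ := by
    have : (fun σ : ℝ => (1 + σ ^ 2)⁻¹ * (δ + v σ ^ 2 / δ))
        = fun σ => δ * (1 + σ ^ 2)⁻¹ + δ⁻¹ * ((1 + σ ^ 2)⁻¹ * v σ ^ 2) := by
      ext σ; field_simp
    rw [this, integral_add (integrable_inv_one_add_sq.const_mul _) (i2.const_mul _),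
      integral_const_mul, integral_const_mul, integral_univ_inv_one_add_sq]
    have h3 : δ⁻¹ * ∫ σ : ℝ, (1 + σ ^ 2)⁻¹ * v σ ^ 2 ≤ δ⁻¹ * δ ^ 2 := by gcongr
    have h4 : δ⁻¹ * δ ^ 2 = δ := by field_simp
    linarith
  have hpt : ∀ τ : ℝ, ‖((b / (Real.pi * (b ^ 2 + τ ^ 2)) : ℝ) : ℂ) * evo D x (s + τ) 0‖
      ≤ δ * (b / (Real.pi * (b ^ 2 + τ ^ 2)))
        + C * ((1 + (s + τ) ^ 2)⁻¹ * (δ + v (s + τ) ^ 2 / δ)) := by
    intro τ
    have hP0 : 0 ≤ b / (Real.pi * (b ^ 2 + τ ^ 2)) := by positivity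
    rw [norm_mul, Complex.norm_real, Real.norm_eq_abs, abs_of_nonneg hP0]
    have hR0 : 0 ≤ C * ((1 + (s + τ) ^ 2)⁻¹ * (δ + v (s + τ) ^ 2 / δ)) := by positivity
    by_cases hτ : |τ| < 1
    · have h3 : ‖evo D x (s + τ) 0‖ ≤ δ := h1 _ ((abs_add_le s τ).trans_lt (by linarith))
      have h4 : b / (Real.pi * (b ^ 2 + τ ^ 2)) * ‖evo D x (s + τ) 0‖
          ≤ b / (Real.pi * (b ^ 2 + τ ^ 2)) * δ := by gcongr
      linarith
    · have hτ1 : 1 ≤ τ ^ 2 := by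
        have := not_lt.1 hτ
        nlinarith [sq_abs τ, abs_nonneg τ]
      have h5 : b / (Real.pi * (b ^ 2 + τ ^ 2)) ≤ 2 * C * (1 + (s + τ) ^ 2)⁻¹ := by
        rw [hC, ← div_eq_mul_inv]
        rw [show 2 * (2 * (1 + s ^ 2) / Real.pi) / (1 + (s + τ) ^ 2)
          = (4 * (1 + s ^ 2)) / (Real.pi * (1 + (s + τ) ^ 2)) by field_simp; ring]
        rw [div_le_div_iff₀ (by positivity) (by positivity)]
        have h6 : 1 + (s + τ) ^ 2 ≤ 4 * (1 + s ^ 2) * τ ^ 2 := by nlinarith [sq_nonneg (s - τ), sq_nonneg s, mul_nonneg (sq_nonneg s) (sub_nonneg.2 hτ1)]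
        calc b * (Real.pi * (1 + (s + τ) ^ 2)) ≤ 1 * (Real.pi * (4 * (1 + s ^ 2) * τ ^ 2)) := by
              gcongr
          _ ≤ 4 * (1 + s ^ 2) * (Real.pi * (b ^ 2 + τ ^ 2)) := by
              have : 0 ≤ 4 * (1 + s ^ 2) * (Real.pi * b ^ 2) := by positivity
              nlinarith
      have h7 : v (s + τ) ≤ (δ + v (s + τ) ^ 2 / δ) / 2 := by
        have h8 : 0 ≤ (v (s + τ) - δ) ^ 2 / δ := by positivity
        have h9 : (v (s + τ) - δ) ^ 2 / δ = v (s + τ) ^ 2 / δ - 2 * v (s + τ) + δ := by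
          field_simp; ring
        linarith
      have h10 : b / (Real.pi * (b ^ 2 + τ ^ 2)) * v (s + τ)
          ≤ (2 * C * (1 + (s + τ) ^ 2)⁻¹) * ((δ + v (s + τ) ^ 2 / δ) / 2) := by
        gcongr
      have h11 : 0 ≤ δ * (b / (Real.pi * (b ^ 2 + τ ^ 2))) := by positivity
      have h12 : (2 * C * (1 + (s + τ) ^ 2)⁻¹) * ((δ + v (s + τ) ^ 2 / δ) / 2)
          = C * ((1 + (s + τ) ^ 2)⁻¹ * (δ + v (s + τ) ^ 2 / δ)) := by ring
      rw [h12] at h10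
      exact h10.trans (by linarith)
  have hmain : ‖∫ τ : ℝ, ((b / (Real.pi * (b ^ 2 + τ ^ 2)) : ℝ) : ℂ) * evo D x (s + τ) 0‖
      ≤ ∫ τ : ℝ, (δ * (b / (Real.pi * (b ^ 2 + τ ^ 2)))
        + C * ((1 + (s + τ) ^ 2)⁻¹ * (δ + v (s + τ) ^ 2 / δ))) :=
    norm_integral_le_of_norm_le ((i1.const_mul _).add (i4.const_mul _)) (Eventually.of_forall hpt)
  refine hmain.trans ?_
  rw [integral_add (i1.const_mul _) (i4.const_mul _), integral_const_mul, integral_const_mul,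
    integral_poisson hb0,
    integral_add_left_eq_self (fun σ : ℝ => (1 + σ ^ 2)⁻¹ * (δ + v σ ^ 2 / δ)) s]
  have h13 : C * ∫ σ : ℝ, (1 + σ ^ 2)⁻¹ * (δ + v σ ^ 2 / δ) ≤ C * (δ * Real.pi + δ) := by gcongr
  have h14 : C * (δ * Real.pi + δ) ≤ 4 * (1 + s ^ 2) * δ := by
    rw [hC, div_mul_eq_mul_div, div_le_iff₀ hpi]
    have : 0 ≤ (1 + s ^ 2) * δ := by positivity
    nlinarith
  linarith

end Vale.Agent.P076.H791
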