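import Vale.Agent.P076.H791.Pos1
import Vale.Agent.P076.H791.Neg3

/-!
# The maximal estimate gives values at all times, continuous in time
-/

open MeasureTheory Complex FourierTransform Filter Topology Set
open scoped ENNReal NNReal

namespace Vale.Agent.P076.H791

variable {n : ℕ} {w : E n → ℝ≥0∞} {G H : E n → ℂ}

/-- the total mass of the weight in time -/
noncomputable def tw : ℝ≥0∞ := ∫⁻ σ : ℝ, ENNReal.ofReal (1 + σ ^ 2)⁻¹

lemma tw_ne_top : tw ≠ ⊤ := by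
  unfold tw
  exact integrable_inv_one_add_sq.lintegral_lt_top.ne

/-- the weighted square function in time -/
noncomputable def qf (D : E n → ℂ) (x : E n) : ℝ≥0∞ :=
  ∫⁻ σ : ℝ, ENNReal.ofReal (1 + σ ^ 2)⁻¹ * ‖evo D x σ 0‖ₑ ^ 2

lemma measurable_qf_aux {D : E n → ℂ} (hD : Integrable D) :
    Measurable fun p : E n × ℝ => ENNReal.ofReal (1 + p.2 ^ 2)⁻¹ * ‖evo D p.1 p.2 0‖ₑ ^ 2 := by
  have h1 : Measurable fun p : E n × ℝ => evo D p.1 p.2 0 := (continuous_evo hD).measurable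
  exact (by fun_prop : Measurable fun p : E n × ℝ => ENNReal.ofReal (1 + p.2 ^ 2)⁻¹).mul
    (h1.enorm.pow_const 2)

lemma measurable_qf {D : E n → ℂ} (hD : Integrable D) : Measurable (qf D) :=
  (measurable_qf_aux hD).lintegral_prod_right'

lemma lintegral_qf {D : E n → ℂ} (hD : Nice w D) : ∫⁻ x, qf D x = tw * ∫⁻ η, ‖D η‖ₑ ^ 2 := by
  unfold qf
  rw [lintegral_lintegral_swap (measurable_qf_aux hD.integrable).aemeasurable]
  have h1 : ∀ σ : ℝ, ∫⁻ x : E n, ENNReal.ofReal (1 + σ ^ 2)⁻¹ * ‖evo D x σ 0‖ₑ ^ 2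
      = ENNReal.ofReal (1 + σ ^ 2)⁻¹ * ∫⁻ η, ‖D η‖ₑ ^ 2 := by
    intro σ
    rw [lintegral_const_mul' _ _ ENNReal.ofReal_ne_top, lintegral_evo hD]
  simp_rw [h1]
  rw [lintegral_mul_const _ (by fun_prop), tw]

lemma volume_qf_ge (hw1 : ∀ η, 1 ≤ w η) {D : E n → ℂ} (hD : Nice w D) (k : ℕ)
    (hE : En w D ≤ th k ^ 2 * th k) : volume {x | th k ^ 2 ≤ qf D x} ≤ tw * th k := by
  have h0 := th_pos k
  have h0' := th_ne_top k
  have h1 := meas_ge_le_lintegral_div (measurable_qf hD.integrable).aemeasurable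
    (μ := (volume : Measure (E n))) (ε := th k ^ 2) (by positivity) (by finiteness)
  refine h1.trans ?_
  rw [lintegral_qf hD]
  refine ENNReal.div_le_of_le_mul' ?_
  calc tw * ∫⁻ η, ‖D η‖ₑ ^ 2 ≤ tw * (th k ^ 2 * th k) := by
        gcongr
        exact (lintegral_le_En hw1 D).trans hE
    _ = th k ^ 2 * (tw * th k) := by ring

lemma integral_sq_le {D : E n → ℂ} (hD : Integrable D) (x : E n) {k : ℕ}
    (h : ¬ th k ^ 2 ≤ qf D x) :
    ∫ σ : ℝ, (1 + σ ^ 2)⁻¹ * ‖evo D x σ 0‖ ^ 2 ≤ ((2 : ℝ)⁻¹ ^ k) ^ 2 := by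
  have h1 : ENNReal.ofReal (∫ σ : ℝ, (1 + σ ^ 2)⁻¹ * ‖evo D x σ 0‖ ^ 2) = qf D x := by
    rw [ofReal_integral_eq_lintegral_ofReal (integrable_sq_weight hD x)
      (Eventually.of_forall fun σ => by positivity)]
    unfold qf
    refine lintegral_congr fun σ => ?_
    rw [ENNReal.ofReal_mul (by positivity), ENNReal.ofReal_pow (norm_nonneg _), ofReal_norm]
  have h2 : ENNReal.ofReal (∫ σ : ℝ, (1 + σ ^ 2)⁻¹ * ‖evo D x σ 0‖ ^ 2)
      ≤ ENNReal.ofReal (((2 : ℝ)⁻¹ ^ k) ^ 2) := by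
    rw [h1, ENNReal.ofReal_pow (by positivity)]
    exact (not_le.1 h).le
  exact (ENNReal.ofReal_le_ofReal_iff (by positivity)).1 h2

end Vale.Agent.P076.H791
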