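import Vale.Agent.P076.H791.Pos2

/-!
# The maximal estimate gives values at all times, continuous in time (end)
-/

open MeasureTheory Complex FourierTransform Filter Topology Set
open scoped ENNReal NNReal

namespace Vale.Agent.P076.H791

variable {n : ℕ} {w : E n → ℝ≥0∞} {G H : E n → ℂ}

lemma En_mono (h : ∀ η, ‖G η‖ ≤ ‖H η‖) : En w G ≤ En w H := by
  unfold En
  refine lintegral_mono fun η => ?_
  have : ‖G η‖ₑ ≤ ‖H η‖ₑ := by
    rw [← ofReal_norm, ← ofReal_norm]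
    exact ENNReal.ofReal_le_ofReal (h η)
  gcongr

lemma Nice.sub (hw : Measurable w) (h1 : Nice w G) (h2 : Nice w H) : Nice w (G - H) := by
  have h3 := h1.add hw (h2.const_mul (-1))
  have h4 : (G + fun η => (-1 : ℂ) * H η) = G - H := by
    ext η
    simp only [Pi.add_apply, Pi.sub_apply]
    ring
  rwa [h4] at h3

lemma norm_cut_sub_le {G : E n → ℂ} {m m' : ℕ} (h : m ≤ m') (η : E n) :
    ‖(cut G m' - cut G m) η‖ ≤ ‖(G - cut G m) η‖ := by
  simp only [Pi.sub_apply, cut]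
  by_cases h1 : η ∈ {η | ‖η‖ ≤ m ∧ ‖G η‖ ≤ m}
  · have hc : (m : ℝ) ≤ m' := by exact_mod_cast h
    have h2 : η ∈ {η | ‖η‖ ≤ m' ∧ ‖G η‖ ≤ m'} := ⟨h1.1.trans hc, h1.2.trans hc⟩
    rw [indicator_of_mem h1, indicator_of_mem h2]
  · rw [indicator_of_notMem h1, sub_zero, sub_zero]
    exact norm_indicator_le_norm_self _ _

lemma integral_sq_le_of_En (hw1 : ∀ η, 1 ≤ w η) {D : E n → ℂ} (hD : Nice w D) {k : ℕ}
    (h : En w D ≤ th k ^ 2 * th k) : ∫ η, ‖D η‖ ^ 2 ≤ ((2 : ℝ)⁻¹ ^ k) ^ 2 := by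
  have h0 : Integrable (fun η => ‖D η‖ ^ 2) := hD.memLp.integrable_norm_pow (by norm_num)
  have h1 : ENNReal.ofReal (∫ η, ‖D η‖ ^ 2) = ∫⁻ η, ‖D η‖ₑ ^ 2 := by
    rw [ofReal_integral_eq_lintegral_ofReal h0 (Eventually.of_forall fun σ => by positivity)]
    refine lintegral_congr fun σ => ?_
    rw [ENNReal.ofReal_pow (norm_nonneg _), ofReal_norm]
  have h2 : ENNReal.ofReal (∫ η, ‖D η‖ ^ 2) ≤ ENNReal.ofReal (((2 : ℝ)⁻¹ ^ k) ^ 2) := by
    rw [h1, ENNReal.ofReal_pow (by positivity)]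
    refine (lintegral_le_En hw1 D).trans (h.trans ?_)
    exact mul_le_of_le_one_right' (th_le_one k)
  exact (ENNReal.ofReal_le_ofReal_iff (by positivity)).1 h2

theorem pos_data (hw : Measurable w) (hw1 : ∀ η, 1 ≤ w η) (h : MP w)
    (F : Lp ℂ 2 (volume : Measure (E n)))
    (hE : En w (fun η => (𝓕 F : Lp ℂ 2 (volume : Measure (E n))) η) < ⊤) :
    ∀ᵐ x, ∃ u : ℝ → ℂ, Continuous u ∧ u 0 = F x ∧
      ∀ s, Tendsto (fun a => evo (fun η => (𝓕 F : Lp ℂ 2 (volume : Measure (E n))) η) x s a)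
        (𝓝[>] 0) (𝓝 (u s)) := by
  set G : E n → ℂ := fun η => (𝓕 F : Lp ℂ 2 (volume : Measure (E n))) η with hG
  have hGm : Measurable G := (Lp.stronglyMeasurable _).measurable
  choose ηf hη0 hη using fun j : ℕ => h (j + 1) ((2 : ℝ)⁻¹ ^ j) (by positivity)
  obtain ⟨φ, hφ, hp⟩ := extraction_forall_of_eventually
    (P := fun j m => En w (G - cut G m) ≤ min (ηf j) (th j ^ 2 * th j)) (fun j => by
      have h0 := th_pos j
      exact ENNReal.tendsto_nhds_zero.1 (tendsto_cut hw hGm hE) _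
        (lt_min (hη0 j) (by positivity)))
  set D : ℕ → E n → ℂ := fun j => cut G (φ (j + 1)) - cut G (φ j) with hD
  have hDn : ∀ j, Nice w (D j) := fun j => (nice_cut hGm hE _).sub hw (nice_cut hGm hE _)
  have hDE : ∀ j, En w (D j) ≤ min (ηf j) (th j ^ 2 * th j) := fun j =>
    (En_mono (norm_cut_sub_le (hφ (Nat.lt_succ_self j)).le)).trans (hp j)
  have hDE1 : ∀ j, En w (D j) ≤ ηf j := fun j => (hDE j).trans (min_le_left _ _)
  have hDE2 : ∀ j, En w (D j) ≤ th j ^ 2 * th j := fun j => (hDE j).trans (min_le_right _ _)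
  set P : ℕ → E n → ℂ := fun i => Nat.rec (cut G (φ 0)) (fun j _ => D j) i with hP
  have hP0 : P 0 = cut G (φ 0) := rfl
  have hPs : ∀ j, P (j + 1) = D j := fun j => rfl
  have hPn : ∀ i, Nice w (P i) := fun i => by
    cases i with
    | zero => exact nice_cut hGm hE _
    | succ j => exact hDn j
  have hPsum : ∀ m η, ∑ i ∈ Finset.range (m + 1), P i η = cut G (φ m) η := by
    intro m η
    induction m with
    | zero => simp [hP0]
    | succ m ih =>
      rw [Finset.sum_range_succ, ih, hPs]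
      simp only [hD, Pi.sub_apply]
      ring
  set δ : ℕ → ℝ := fun i => Nat.rec (√(∫ η, ‖cut G (φ 0) η‖ ^ 2) + 1) (fun j _ => (2 : ℝ)⁻¹ ^ j) i
    with hδ
  have hδs : ∀ j, δ (j + 1) = (2 : ℝ)⁻¹ ^ j := fun j => rfl
  have hPieces : Pieces P δ := by
    refine ⟨fun i => (hPn i).integrable, fun i => (hPn i).memLp, fun i => ?_, fun i => ?_, ?_⟩
    · cases i with
      | zero =>
        have h1 : 0 ≤ ∫ η, ‖cut G (φ 0) η‖ ^ 2 := integral_nonneg fun η => by positivity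
        have h2 := Real.sq_sqrt h1
        have h3 := Real.sqrt_nonneg (∫ η, ‖cut G (φ 0) η‖ ^ 2)
        change ∫ η, ‖cut G (φ 0) η‖ ^ 2 ≤ (√(∫ η, ‖cut G (φ 0) η‖ ^ 2) + 1) ^ 2
        nlinarith
      | succ j => exact integral_sq_le_of_En hw1 (hDn j) (hDE2 j)
    · cases i with
      | zero =>
        change 0 < √(∫ η, ‖cut G (φ 0) η‖ ^ 2) + 1
        positivity
      | succ j =>
        rw [hδs]
        positivity
    · rw [← summable_nat_add_iff 1]
      exact summable_geo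
  obtain ⟨f, hf1, hf2⟩ := exists_f hPieces
  have hGf : ∀ᵐ η, (𝓕 f : Lp ℂ 2 (volume : Measure (E n))) η = G η := by
    filter_upwards [hf1] with η hη'
    have h1 := (tendsto_add_atTop_iff_nat 1).2 hη'.tendsto_sum_nat
    simp_rw [hPsum] at h1
    refine tendsto_nhds_unique h1 (tendsto_const_nhds.congr' ?_)
    obtain ⟨m₀, hm₀⟩ := exists_nat_ge (max ‖η‖ ‖G η‖)
    filter_upwards [eventually_ge_atTop m₀] with m hm
    have h3 : (m₀ : ℝ) ≤ φ m := by exact_mod_cast hm.trans (hφ.id_le m)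
    have h2 : η ∈ {η | ‖η‖ ≤ φ m ∧ ‖G η‖ ≤ φ m} :=
      ⟨((le_max_left _ _).trans hm₀).trans h3, ((le_max_right _ _).trans hm₀).trans h3⟩
    simp only [cut]
    rw [indicator_of_mem h2]
  have hfF : f = F := by
    have h1 : (𝓕 f : Lp ℂ 2 (volume : Measure (E n))) = 𝓕 F := Lp.ext hGf
    exact (Lp.fourierTransformₗᵢ (E n) ℂ).injective h1
  subst hfF
  have hE1 : ∑' j : ℕ, volume (mset (D j) (Ioo (-((j + 1 : ℕ) : ℝ)) ((j + 1 : ℕ) : ℝ)) ((2 : ℝ)⁻¹ ^ j)
      ∩ Metric.ball 0 ((j + 1 : ℕ) : ℝ)) ≠ ⊤ :=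
    ne_top_of_le_ne_top tsum_th (ENNReal.tsum_le_tsum fun j => hη j (D j) (hDn j) (hDE1 j))
  have hE2 : ∑' j : ℕ, volume {x | th j ^ 2 ≤ qf (D j) x} ≠ ⊤ := by
    refine ne_top_of_le_ne_top ?_ (ENNReal.tsum_le_tsum fun j => volume_qf_ge hw1 (hDn j) j (hDE2 j))
    rw [ENNReal.tsum_mul_left]
    exact ENNReal.mul_ne_top tw_ne_top tsum_th
  filter_upwards [ae_eventually_notMem hE1, ae_eventually_notMem hE2, hf2] with x hx1 hx2 hx3
  obtain ⟨J₁, hJ₁⟩ := eventually_atTop.1 (hx1.and hx2)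
  obtain ⟨J₂, hJ₂⟩ := exists_nat_gt ‖x‖
  set J : ℕ := max J₁ J₂ with hJ
  have hb1 : ∀ j, J ≤ j → ∀ σ : ℝ, |σ| < j + 1 → ‖evo (D j) x σ 0‖ ≤ (2 : ℝ)⁻¹ ^ j := by
    intro j hj σ hσ
    by_contra hcon
    refine (hJ₁ j ((le_max_left _ _).trans hj)).1 ⟨⟨σ, ?_, not_le.1 hcon⟩, ?_⟩
    · have h1 := abs_lt.1 hσ
      push_cast
      exact ⟨h1.1, h1.2⟩
    · rw [mem_ball_zero_iff]
      have h2 : J₂ ≤ j := (le_max_right _ _).trans hj
      have h3 : (J₂ : ℝ) ≤ j := by exact_mod_cast h2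
      push_cast
      linarith
  have hb2 : ∀ j, J ≤ j → ∫ σ : ℝ, (1 + σ ^ 2)⁻¹ * ‖evo (D j) x σ 0‖ ^ 2 ≤ ((2 : ℝ)⁻¹ ^ j) ^ 2 :=
    fun j hj => integral_sq_le (hDn j).integrable x (hJ₁ j ((le_max_left _ _).trans hj)).2
  set B : ℕ → ℕ → ℝ := fun R i => if J + R + 1 ≤ i then (1 + 4 * (1 + (R : ℝ) ^ 2)) * δ i
    else ∫ η, ‖P i η‖ with hB
  have hBs : ∀ R, Summable (B R) := by
    intro R
    have hev : ∀ᶠ i in atTop, (1 + 4 * (1 + (R : ℝ) ^ 2)) * δ i = B R i := by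
      filter_upwards [eventually_ge_atTop (J + R + 1)] with i hi
      simp only [hB]
      rw [if_pos hi]
    exact (summable_congr_atTop hev).1 (hPieces.summable.mul_left _)
  have hle : ∀ R : ℕ, ∀ i, ∀ s : ℝ, |s| ≤ R → ∀ a : ℝ, 0 ≤ a → a ≤ 1 →
      ‖evo (P i) x s a‖ ≤ B R i := by
    intro R i s hs a ha ha1
    simp only [hB]
    split_ifs with hi
    · obtain ⟨j, rfl⟩ : ∃ j, i = j + 1 := ⟨i - 1, by omega⟩
      have hj : J ≤ j := by omega
      have hRj : (R : ℝ) ≤ j := by exact_mod_cast (by omega : R ≤ j)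
      rw [hPs, hδs]
      have hd : (0 : ℝ) < (2 : ℝ)⁻¹ ^ j := by positivity
      rcases ha.eq_or_lt with rfl | ha0
      · refine (hb1 j hj s (by linarith)).trans ?_
        refine le_mul_of_one_le_left hd.le ?_
        have : 0 ≤ (R : ℝ) ^ 2 := by positivity
        linarith
      · refine (avg_bound (hDn j).integrable x s ha0 ha1 hd (fun σ hσ => hb1 j hj σ (by linarith))
          (hb2 j hj)).trans ?_
        have h5 : s ^ 2 ≤ (R : ℝ) ^ 2 := by
          rw [← sq_abs]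
          exact pow_le_pow_left₀ (abs_nonneg _) hs 2
        gcongr
    · exact norm_evo_le (hPn i).integrable x s ha
  refine ⟨fun s => ∑' i, evo (P i) x s 0, ?_, hx3.tsum_eq, fun s => ?_⟩
  · refine continuous_iff_continuousAt.2 fun s => ?_
    obtain ⟨R, hR⟩ := exists_nat_gt |s|
    have h1 : ContinuousOn (fun s => ∑' i, evo (P i) x s 0) (Ioo (-(R : ℝ)) R) := by
      refine continuousOn_tsum (fun i => (continuous_evo_s (hPn i).integrable x).continuousOn)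
        (hBs R) fun i s hs => hle R i s ?_ 0 le_rfl zero_le_one
      exact abs_le.2 ⟨hs.1.le, hs.2.le⟩
    exact h1.continuousAt (Ioo_mem_nhds (abs_lt.1 hR).1 (abs_lt.1 hR).2)
  · obtain ⟨R, hR⟩ := exists_nat_gt |s|
    have h1 : Tendsto (fun a => ∑' i, evo (P i) x s a) (𝓝[>] 0) (𝓝 (∑' i, evo (P i) x s 0)) := by
      refine tendsto_tsum_of_dominated_convergence (hBs R)
        (fun i => tendsto_evo (hPn i).integrable x s) ?_
      have h2 : Ioo (0 : ℝ) 1 ∈ 𝓝[>] (0 : ℝ) := Ioo_mem_nhdsGT zero_lt_one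
      filter_upwards [h2] with a ha i
      exact hle R i s hR.le a ha.1.le ha.2.le
    refine h1.congr' ?_
    filter_upwards [self_mem_nhdsWithin] with a ha
    exact (evo_hasSum hPieces hf1 x s ha).tsum_eq

end Vale.Agent.P076.H791
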