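import Vale.Agent.P076.Bdl.All

/-! Fourier pairs come from `L²` functions; uniqueness; scaling. -/

open MeasureTheory Complex FourierTransform Filter Topology
open scoped ENNReal

namespace Vale.Agent.P076.H791

open Vale.Agent.P076

variable {n : ℕ}

/-- the change of variables `η = ξ / (2 π)` -/
lemma map_scale : Measure.map (fun ξ : Fin n → ℝ => (2 * Real.pi)⁻¹ • toE ξ) volume
    = ENNReal.ofReal ((2 * Real.pi) ^ n) • (volume : Measure (E n)) := by
  have hpi : (2 * Real.pi)⁻¹ ≠ (0 : ℝ) := by positivity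
  have h1 : Measure.map (fun η : E n => (2 * Real.pi)⁻¹ • η) volume
      = ENNReal.ofReal ((2 * Real.pi) ^ n) • (volume : Measure (E n)) := by
    rw [Measure.map_addHaar_smul _ hpi]
    congr 2
    rw [finrank_euclideanSpace, Fintype.card_fin, inv_pow, inv_inv]
    exact abs_of_pos (by positivity)
  have h2 : (fun ξ : Fin n → ℝ => (2 * Real.pi)⁻¹ • toE ξ)
      = (fun η : E n => (2 * Real.pi)⁻¹ • η) ∘ toE := rfl
  rw [h2, ← Measure.map_map (measurable_const_smul _) measurePreserving_toE.measurable,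
    measurePreserving_toE.map_eq, h1]

lemma measurableEmbedding_scale :
    MeasurableEmbedding (fun ξ : Fin n → ℝ => (2 * Real.pi)⁻¹ • toE ξ : (Fin n → ℝ) → E n) := by
  have hpi : (2 * Real.pi)⁻¹ ≠ (0 : ℝ) := by positivity
  exact (Homeomorph.smulOfNeZero ((2 * Real.pi)⁻¹ : ℝ) hpi : E n ≃ₜ E n).measurableEmbedding.comp
    measurableEmbedding_toE

lemma ofReal_pos_scale : ENNReal.ofReal ((2 * Real.pi) ^ n) ≠ 0 := by
  rw [ne_eq, ENNReal.ofReal_eq_zero, not_le]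
  positivity

lemma ae_scale_iff {p : E n → Prop} :
    (∀ᵐ ξ : Fin n → ℝ, p ((2 * Real.pi)⁻¹ • toE ξ)) ↔ ∀ᵐ η : E n, p η := by
  rw [← (measurableEmbedding_scale (n := n)).ae_map_iff, map_scale,
    Measure.ae_ennreal_smul_measure_iff ofReal_pos_scale]

theorem lintegral_scale (φ : E n → ℝ≥0∞) :
    ∫⁻ ξ : Fin n → ℝ, φ ((2 * Real.pi)⁻¹ • toE ξ) =
      ENNReal.ofReal ((2 * Real.pi) ^ n) * ∫⁻ η, φ η := by
  rw [← (measurableEmbedding_scale (n := n)).lintegral_map φ, map_scale, lintegral_smul_measure,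
    smul_eq_mul]

theorem freq_ae {F : Lp ℂ 2 (volume : Measure (E n))} {G : E n → ℂ}
    (h : ∀ᵐ η, (𝓕 F : Lp ℂ 2 (volume : Measure (E n))) η = G η) :
    ∀ᵐ ξ : Fin n → ℝ, freq F ξ = G ((2 * Real.pi)⁻¹ • toE ξ) :=
  ae_scale_iff.2 h

theorem freq_ae' {F : Lp ℂ 2 (volume : Measure (E n))} {G : E n → ℂ}
    (h : ∀ᵐ ξ : Fin n → ℝ, freq F ξ = G ((2 * Real.pi)⁻¹ • toE ξ)) :
    ∀ᵐ η, (𝓕 F : Lp ℂ 2 (volume : Measure (E n))) η = G η :=
  ae_scale_iff.1 h

/-- the truncated integrals only depend on the class of `f` -/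
lemma truncInt_congr {f f' : (Fin n → ℝ) → ℂ} (h : f =ᵐ[volume] f') (R : ℝ) (ξ : Fin n → ℝ) :
    ∫ x in {x : Fin n → ℝ | ∀ i, |x i| ≤ R}, cexp (-(I * ∑ i, x i * ξ i)) * f x =
      ∫ x in {x : Fin n → ℝ | ∀ i, |x i| ≤ R}, cexp (-(I * ∑ i, x i * ξ i)) * f' x := by
  refine integral_congr_ae ?_
  filter_upwards [ae_restrict_of_ae h] with x hx
  rw [hx]

theorem isFourierPair_congr {f g f' g' : (Fin n → ℝ) → ℂ} (h : IsFourierPair f g)
    (hf : f =ᵐ[volume] f') (hg : g =ᵐ[volume] g') : IsFourierPair f' g' := by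
  refine ⟨(memLp_congr_ae hf).1 h.1, (memLp_congr_ae hg).1 h.2.1, ?_⟩
  refine h.2.2.congr fun R => eLpNorm_congr_ae ?_
  filter_upwards [hg] with ξ hξ
  rw [hξ, truncInt_congr hf]

theorem evolve_congr {g g' : (Fin n → ℝ) → ℂ} (h : g =ᵐ[volume] g') (t a : ℝ) (x : Fin n → ℝ) :
    evolve g t a x = evolve g' t a x := by
  unfold evolve
  congr 1
  refine integral_congr_ae ?_
  filter_upwards [h] with ξ hξ
  rw [hξ]

/-- `L²` limits are unique -/
lemma ae_eq_of_tendsto {g g' : (Fin n → ℝ) → ℂ} {J : ℝ → (Fin n → ℝ) → ℂ}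
    (hg : AEStronglyMeasurable g) (hg' : AEStronglyMeasurable g')
    (hJ : ∀ R, AEStronglyMeasurable (J R))
    (h : Tendsto (fun R : ℝ => eLpNorm (fun ξ => g ξ - J R ξ) 2) atTop (𝓝 0))
    (h' : Tendsto (fun R : ℝ => eLpNorm (fun ξ => g' ξ - J R ξ) 2) atTop (𝓝 0)) :
    g =ᵐ[volume] g' := by
  have h1 : Tendsto (fun R : ℝ => eLpNorm (fun ξ => g ξ - J R ξ) 2 volume +
      eLpNorm (fun ξ => g' ξ - J R ξ) 2 volume) atTop (𝓝 0) := by
    simpa using h.add h'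
  have h2 : ∀ R, eLpNorm (g - g') 2 volume ≤ eLpNorm (fun ξ => g ξ - J R ξ) 2 volume +
      eLpNorm (fun ξ => g' ξ - J R ξ) 2 volume := by
    intro R
    have e : g - g' = (fun ξ => g ξ - J R ξ) - fun ξ => g' ξ - J R ξ := by
      funext ξ
      simp
    rw [e]
    exact eLpNorm_sub_le (hg.sub (hJ R)) (hg'.sub (hJ R)) (by norm_num)
  have h3 : eLpNorm (g - g') 2 volume = 0 :=
    le_antisymm (ge_of_tendsto' h1 h2) bot_le
  rw [eLpNorm_eq_zero_iff (hg.sub hg') (by norm_num)] at h3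
  filter_upwards [h3] with ξ hξ
  exact sub_eq_zero.1 hξ

lemma aesm_truncInt (F : Lp ℂ 2 (volume : Measure (E n))) (R : ℝ) :
    AEStronglyMeasurable (fun ξ : Fin n → ℝ => ∫ x in {x : Fin n → ℝ | ∀ i, |x i| ≤ R},
      cexp (-(I * ∑ i, x i * ξ i)) * phys F x) := by
  simp_rw [inner_integral_eq F R]
  have h1 : Continuous (𝓕 (trunc F R) : E n → ℂ) :=
    continuous_fourier (integrable_trunc (Lp.memLp F) R)
  have h2 : Continuous (fun ξ : Fin n → ℝ => (2 * Real.pi)⁻¹ • toE ξ : (Fin n → ℝ) → E n) :=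
    Continuous.const_smul (PiLp.continuous_toLp 2 (fun _ : Fin n => ℝ)) ((2 * Real.pi)⁻¹ : ℝ)
  exact (h1.comp h2).aestronglyMeasurable

theorem exists_lp {f g : (Fin n → ℝ) → ℂ} (h : IsFourierPair f g) :
    ∃ F : Lp ℂ 2 (volume : Measure (E n)), f =ᵐ[volume] phys F ∧ g =ᵐ[volume] freq F := by
  have hm : MemLp (f ∘ (WithLp.ofLp : E n → Fin n → ℝ)) 2 volume :=
    h.1.comp_measurePreserving (PiLp.volume_preserving_ofLp (Fin n))
  refine ⟨hm.toLp _, ?_, ?_⟩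
  · filter_upwards [ae_toE hm.coeFn_toLp] with x hx
    exact hx.symm
  · have hf : f =ᵐ[volume] phys (hm.toLp _) := by
      filter_upwards [ae_toE hm.coeFn_toLp] with x hx
      exact hx.symm
    have hp := isFourierPair (hm.toLp _)
    refine ae_eq_of_tendsto h.2.1.1 hp.2.1.1 (aesm_truncInt (hm.toLp _)) ?_ hp.2.2
    refine h.2.2.congr fun R => ?_
    congr 1
    funext ξ
    rw [truncInt_congr hf]

/-- `phys` determines the function, and so does `freq` -/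
lemma eq_of_freq {F F' : Lp ℂ 2 (volume : Measure (E n))} (h : freq F =ᵐ[volume] freq F') :
    F = F' := by
  have h1 : ∀ᵐ η, (𝓕 F : Lp ℂ 2 (volume : Measure (E n))) η
      = (𝓕 F' : Lp ℂ 2 (volume : Measure (E n))) η := freq_ae' h
  have h2 : (𝓕 F : Lp ℂ 2 (volume : Measure (E n))) = 𝓕 F' := Lp.ext h1
  exact (Lp.fourierTransformₗᵢ (E n) ℂ).injective h2

theorem uniq {f g f' g' : (Fin n → ℝ) → ℂ} (h : IsFourierPair f g) (h' : IsFourierPair f' g')
    (hg : g =ᵐ[volume] g') : f =ᵐ[volume] f' := by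
  obtain ⟨F, h1, h2⟩ := exists_lp h
  obtain ⟨F', h3, h4⟩ := exists_lp h'
  have : F = F' := eq_of_freq (h2.symm.trans (hg.trans h4))
  subst this
  exact h1.trans h3.symm

end Vale.Agent.P076.H791
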