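import Vale.Agent.P076.H791.Pos3
import Vale.Agent.P076.H791.Uniq

/-!
# The zero-one law
-/

open MeasureTheory Complex FourierTransform Filter Topology Set
open scoped ENNReal NNReal

namespace Vale.Agent.P076.H791

variable {n : ℕ} {w : E n → ℝ≥0∞} {G H : E n → ℂ}

lemma sq_eLpNorm {X : Type*} [MeasurableSpace X] (μ : Measure X) (f : X → ℂ) :
    eLpNorm f 2 μ ^ 2 = ∫⁻ x, ‖f x‖ₑ ^ 2 ∂μ := by
  rw [eLpNorm_eq_lintegral_rpow_enorm_toReal (by norm_num) (by norm_num)]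
  simp only [ENNReal.toReal_ofNat, ENNReal.rpow_ofNat, one_div]
  rw [← ENNReal.rpow_natCast, ← ENNReal.rpow_mul]
  norm_num

lemma En_eq (hw : Measurable w) (hG : Measurable G) :
    En w G = eLpNorm G 2 (volume.withDensity w) ^ 2 := by
  rw [sq_eLpNorm, lintegral_withDensity_eq_lintegral_mul _ hw (hG.enorm.pow_const 2)]
  rfl

lemma En_tsum_lt_top (hw : Measurable w) {H : ℕ → E n → ℂ} (hH : ∀ k, Nice w (H k))
    (hE : ∀ k, En w (H k) ≤ th k ^ 2 * th k) {g : E n → ℂ} (hg : Measurable g)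
    (hs : ∀ᵐ η, HasSum (fun k => H k η) (g η)) : En w g < ⊤ := by
  rw [En_eq hw hg]
  set μ := (volume : Measure (E n)).withDensity w with hμ
  have h1 : ∀ m, eLpNorm (H m) 2 μ ≤ th m := by
    intro m
    have h2 : eLpNorm (H m) 2 μ ^ 2 ≤ th m ^ 2 := by
      rw [← En_eq hw (hH m).meas]
      exact (hE m).trans (mul_le_of_le_one_right' (th_le_one m))
    exact (ENNReal.pow_le_pow_left_iff (by norm_num)).1 h2
  have h3 : ∀ m, eLpNorm (fun η => ∑ k ∈ Finset.range m, H k η) 2 μ ≤ ∑' k, th k := by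
    intro m
    have h4 : (fun η => ∑ k ∈ Finset.range m, H k η) = ∑ k ∈ Finset.range m, H k := by
      ext η; simp
    rw [h4]
    refine (eLpNorm_sum_le (fun k _ => (hH k).meas.aestronglyMeasurable) (by norm_num)).trans ?_
    exact (Finset.sum_le_sum fun k _ => h1 k).trans (ENNReal.sum_le_tsum _)
  have h5 : eLpNorm g 2 μ ≤ ∑' k, th k := by
    refine (Lp.eLpNorm_lim_le_liminf_eLpNorm (f := fun m η => ∑ k ∈ Finset.range m, H k η)
      (fun m => (Finset.measurable_sum _ fun k _ => (hH k).meas).aestronglyMeasurable) g ?_).trans ?_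
    · exact (withDensity_absolutelyContinuous _ _).ae_le
        (hs.mono fun η hη => hη.tendsto_sum_nat)
    · refine (liminf_le_liminf (Eventually.of_forall h3)).trans ?_
      simp
  have h6 : eLpNorm g 2 μ < ⊤ := h5.trans_lt (lt_top_iff_ne_top.2 tsum_th)
  finiteness

lemma pieces_of (hw1 : ∀ η, 1 ≤ w η) {H : ℕ → E n → ℂ} (hH : ∀ k, Nice w (H k))
    (hE : ∀ k, En w (H k) ≤ th k ^ 2 * th k) : Pieces H fun k => (2 : ℝ)⁻¹ ^ k where
  int := fun k => (hH k).integrable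
  memLp := fun k => (hH k).memLp
  sq := fun k => integral_sq_le_of_En hw1 (hH k) (hE k)
  pos := fun k => by positivity
  summable := summable_geo

/-- the weight on the other side -/
noncomputable def wt (w : (Fin n → ℝ) → ℝ≥0∞) (η : E n) : ℝ≥0∞ := w (WithLp.ofLp ((2 * Real.pi) • η))

lemma wt_scale (w : (Fin n → ℝ) → ℝ≥0∞) (ξ : Fin n → ℝ) :
    wt w ((2 * Real.pi)⁻¹ • toE ξ) = w ξ := by
  unfold wt
  rw [smul_smul, mul_inv_cancel₀ (by positivity), one_smul]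
  rfl

lemma measurable_wt {w : (Fin n → ℝ) → ℝ≥0∞} (hw : Measurable w) : Measurable (wt w) :=
  hw.comp ((PiLp.continuous_ofLp 2 (fun _ : Fin n => ℝ)).measurable.comp
    (measurable_const_smul (2 * Real.pi)))

lemma energy_freq (w : (Fin n → ℝ) → ℝ≥0∞) (F : Lp ℂ 2 (volume : Measure (E n))) :
    ∫⁻ ξ, w ξ * ‖freq F ξ‖ₑ ^ 2 = ENNReal.ofReal ((2 * Real.pi) ^ n) *
      En (wt w) (fun η => (𝓕 F : Lp ℂ 2 (volume : Measure (E n))) η) := by
  have h1 := lintegral_scale (n := n)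
    (fun η => wt w η * ‖(𝓕 F : Lp ℂ 2 (volume : Measure (E n))) η‖ₑ ^ 2)
  simp only [wt_scale] at h1
  unfold En
  rw [← h1]
  rfl

theorem zeroOne {n : ℕ} (w : (Fin n → ℝ) → ℝ≥0∞) (hw : Measurable w) (hw1 : ∀ ξ, 1 ≤ w ξ) :
    (∀ f g : (Fin n → ℝ) → ℂ, IsFourierPair f g → ∫⁻ ξ, w ξ * ‖g ξ‖ₑ ^ 2 < ⊤ →
      ∀ᵐ x, ∃ u : ℝ → ℂ, Continuous u ∧ u 0 = f x ∧
        ∀ t, Tendsto (fun a => evolve g t a x) (𝓝[>] 0) (𝓝 (u t))) ∨
    (∃ f g : (Fin n → ℝ) → ℂ, IsFourierPair f g ∧ ∫⁻ ξ, w ξ * ‖g ξ‖ₑ ^ 2 < ⊤ ∧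
      ∃ T : Set ℝ, T ⊆ Set.Ioi 0 ∧ (∀ δ > 0, (T ∩ Set.Ici δ).Finite) ∧
        ∀ u : ℝ → (Fin n → ℝ) → ℂ,
          (∀ t ∈ T, IsFourierPair (u t) fun ξ => cexp (-(I * t * nrm ξ ^ 2)) * g ξ) →
          ∀ᵐ x, ∀ M : ℝ, ∃ᶠ t in 𝓝[T] (0 : ℝ), M < ‖u t x‖) := by
  have hwt := measurable_wt hw
  have hwt1 : ∀ η, 1 ≤ wt w η := fun η => hw1 _
  have hpi : (0 : ℝ) < 2 * Real.pi := by positivity
  by_cases h : MP (wt w)
  · left
    intro f g hfg hE
    obtain ⟨F, hf, hg⟩ := exists_lp hfg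
    have hE2 : En (wt w) (fun η => (𝓕 F : Lp ℂ 2 (volume : Measure (E n))) η) < ⊤ := by
      have h1 : ∫⁻ ξ, w ξ * ‖g ξ‖ₑ ^ 2 = ∫⁻ ξ, w ξ * ‖freq F ξ‖ₑ ^ 2 := by
        refine lintegral_congr_ae ?_
        filter_upwards [hg] with ξ hξ
        rw [hξ]
      rw [h1, energy_freq] at hE
      by_contra hcon
      rw [not_lt, top_le_iff] at hcon
      rw [hcon, ENNReal.mul_top ofReal_pos_scale] at hE
      exact lt_irrefl _ hE
    filter_upwards [ae_toE (pos_data hwt hwt1 h F hE2), hf] with x hx hfx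
    obtain ⟨u, hu, hu0, hut⟩ := hx
    refine ⟨fun t => u (2 * Real.pi * t), hu.comp (continuous_const.mul continuous_id), ?_, fun t => ?_⟩
    · simp only [mul_zero]
      rw [hu0, hfx]
      rfl
    · have h2 : Tendsto (fun b : ℝ => 4 * Real.pi ^ 2 * b) (𝓝[>] 0) (𝓝[>] 0) := by
        refine tendsto_nhdsWithin_iff.2 ⟨?_, ?_⟩
        · have : Tendsto (fun b : ℝ => 4 * Real.pi ^ 2 * b) (𝓝 0) (𝓝 (4 * Real.pi ^ 2 * 0)) :=
            (continuous_const.mul continuous_id).tendsto 0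
          rw [mul_zero] at this
          exact this.mono_left nhdsWithin_le_nhds
        · filter_upwards [self_mem_nhdsWithin] with b hb
          have hb' : (0:ℝ) < b := hb
          exact Set.mem_Ioi.2 (by positivity)
      refine ((hut (2 * Real.pi * t)).comp h2).congr fun a => ?_
      rw [evolve_congr hg, evolve_freq, schrReg_eq_evo]
      rfl
  · right
    obtain ⟨H, hHn, hHE, T, hT0, hTf, hT⟩ := neg_data hwt hwt1 h
    have hP := pieces_of hwt1 hHn hHE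
    obtain ⟨F, hF1, hF2⟩ := exists_f hP
    refine ⟨phys F, freq F, isFourierPair F, ?_, (fun s => s / (2 * Real.pi)) '' T, ?_, ?_, ?_⟩
    · rw [energy_freq]
      have h1 := En_tsum_lt_top hwt hHn hHE (Lp.stronglyMeasurable (𝓕 F : Lp ℂ 2 (volume : Measure (E n)))).measurable hF1
      exact ENNReal.mul_lt_top ENNReal.ofReal_lt_top h1
    · rintro _ ⟨s, hs, rfl⟩
      have : 0 < s := hT0 hs
      exact Set.mem_Ioi.2 (by positivity)
    · intro δ hδ
      refine ((hTf (2 * Real.pi * δ) (by positivity)).image (fun s => s / (2 * Real.pi))).subset ?_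
      rintro _ ⟨⟨s, hs, rfl⟩, hsδ⟩
      refine ⟨s, ⟨hs, ?_⟩, rfl⟩
      have h1 : δ ≤ s / (2 * Real.pi) := hsδ
      rw [le_div_iff₀ hpi] at h1
      exact Set.mem_Ici.2 (by linarith)
    · intro u hu
      have hTc : T.Countable := by
        have h1 : T = ⋃ m : ℕ, T ∩ Ici (1 / ((m : ℝ) + 1)) := by
          rw [← inter_iUnion]
          refine (inter_eq_left.2 fun s hs => ?_).symm
          have h2 : 0 < s := hT0 hs
          obtain ⟨m, hm⟩ := exists_nat_one_div_lt h2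
          exact mem_iUnion.2 ⟨m, hm.le⟩
        rw [h1]
        exact countable_iUnion fun m => (hTf _ (by positivity)).countable
      have key : ∀ s ∈ T, ∀ᵐ x : Fin n → ℝ,
          HasSum (fun k => evo (H k) (toE x) s 0) (u (s / (2 * Real.pi)) x) := by
        intro s hs
        have hP' := pieces_of hwt1 (H := fun k => sft s (H k)) (fun k => (hHn k).sft s)
          (fun k => (En_sft s).le.trans (hHE k))
        obtain ⟨F', hF1', hF2'⟩ := exists_f hP'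
        have h1 : ∀ᵐ η, (𝓕 F' : Lp ℂ 2 (volume : Measure (E n))) η =
            sft s (fun η => (𝓕 F : Lp ℂ 2 (volume : Measure (E n))) η) η := by
          filter_upwards [hF1, hF1'] with η h1 h2
          exact h2.unique (h1.mul_left _)
        have h2 := freq_ae h1
        have h3 : u (s / (2 * Real.pi)) =ᵐ[volume] phys F' := by
          refine uniq (hu _ ⟨s, hs, rfl⟩) (isFourierPair F') ?_
          filter_upwards [h2] with ξ hξ
          rw [hξ, sft]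
          congr 2
          rw [norm_smul, nrm_eq, Real.norm_eq_abs, abs_of_pos (inv_pos.2 hpi)]
          have hpc : (Real.pi : ℂ) ≠ 0 := by exact_mod_cast Real.pi_ne_zero
          push_cast
          field_simp
        filter_upwards [h3, ae_toE hF2'] with x hx1 hx2
        rw [hx1]
        simp_rw [evo_sft, zero_add] at hx2
        exact hx2
      have key2 : ∀ᵐ x : Fin n → ℝ, ∀ s ∈ T,
          HasSum (fun k => evo (H k) (toE x) s 0) (u (s / (2 * Real.pi)) x) :=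
        (ae_ball_iff hTc).2 key
      filter_upwards [key2, ae_toE hT] with x hx1 hx2 M
      have h1 := hx2 (fun s => u (s / (2 * Real.pi)) x) hx1 M
      have h2 : Tendsto (fun s : ℝ => s / (2 * Real.pi)) (𝓝[T] 0)
          (𝓝[(fun s => s / (2 * Real.pi)) '' T] 0) := by
        refine tendsto_nhdsWithin_iff.2 ⟨?_, ?_⟩
        · have : Tendsto (fun s : ℝ => s / (2 * Real.pi)) (𝓝 0) (𝓝 (0 / (2 * Real.pi))) :=
            (continuous_id.div_const _).tendsto 0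
          rw [zero_div] at this
          exact this.mono_left nhdsWithin_le_nhds
        · filter_upwards [self_mem_nhdsWithin] with s hs
          exact mem_image_of_mem _ hs
      exact h2.frequently h1

lemma one_le_weight {n : ℕ} {s : ℝ} (hs : 0 ≤ s) (ξ : Fin n → ℝ) : 1 ≤ (1 + nrm ξ ^ 2) ^ s :=
  Real.one_le_rpow (by nlinarith [sq_nonneg (nrm ξ)]) hs

lemma measurable_weight {n : ℕ} (s : ℝ) :
    Measurable fun ξ : Fin n → ℝ => ENNReal.ofReal ((1 + nrm ξ ^ 2) ^ s) := by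
  unfold nrm
  fun_prop

lemma integrable_weight_iff {n : ℕ} (s : ℝ) {g : (Fin n → ℝ) → ℂ} (hg : MemLp g 2 volume) :
    Integrable (fun ξ => (1 + nrm ξ ^ 2) ^ s * ‖g ξ‖ ^ 2) ↔
      ∫⁻ ξ, ENNReal.ofReal ((1 + nrm ξ ^ 2) ^ s) * ‖g ξ‖ₑ ^ 2 < ⊤ := by
  have h0 : ∀ ξ : Fin n → ℝ, 0 ≤ (1 + nrm ξ ^ 2) ^ s := fun ξ => by positivity
  have hm : AEStronglyMeasurable (fun ξ : Fin n → ℝ => (1 + nrm ξ ^ 2) ^ s * ‖g ξ‖ ^ 2) volume := by
    have h1 : Measurable fun ξ : Fin n → ℝ => (1 + nrm ξ ^ 2) ^ s := by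
      unfold nrm
      fun_prop
    exact h1.aestronglyMeasurable.mul (hg.1.norm.pow 2)
  have h2 : ∀ ξ, ‖(1 + nrm ξ ^ 2) ^ s * ‖g ξ‖ ^ 2‖ₑ
      = ENNReal.ofReal ((1 + nrm ξ ^ 2) ^ s) * ‖g ξ‖ₑ ^ 2 := by
    intro ξ
    rw [enorm_mul, Real.enorm_of_nonneg (h0 ξ), enorm_pow, enorm_norm]
  unfold Integrable HasFiniteIntegral
  simp_rw [h2]
  exact ⟨fun h => h.2, fun h => ⟨hm, h⟩⟩

theorem zeroOneH {n : ℕ} {s : ℝ} (hs : 0 ≤ s) :
    (∀ f g : (Fin n → ℝ) → ℂ, IsFourierPair f g →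
      Integrable (fun ξ => (1 + nrm ξ ^ 2) ^ s * ‖g ξ‖ ^ 2) →
      ∀ᵐ x, ∃ u : ℝ → ℂ, Continuous u ∧ u 0 = f x ∧
        ∀ t, Tendsto (fun a => evolve g t a x) (𝓝[>] 0) (𝓝 (u t))) ∨
    (∃ f g : (Fin n → ℝ) → ℂ, IsFourierPair f g ∧
      Integrable (fun ξ => (1 + nrm ξ ^ 2) ^ s * ‖g ξ‖ ^ 2) ∧
      ∃ T : Set ℝ, T ⊆ Set.Ioi 0 ∧ (∀ δ > 0, (T ∩ Set.Ici δ).Finite) ∧
        ∀ u : ℝ → (Fin n → ℝ) → ℂ,
          (∀ t ∈ T, IsFourierPair (u t) fun ξ => cexp (-(I * t * nrm ξ ^ 2)) * g ξ) →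
          ∀ᵐ x, ∀ M : ℝ, ∃ᶠ t in 𝓝[T] (0 : ℝ), M < ‖u t x‖) := by
  rcases zeroOne (n := n) (fun ξ => ENNReal.ofReal ((1 + nrm ξ ^ 2) ^ s)) (measurable_weight s)
    (fun ξ => ENNReal.one_le_ofReal.2 (one_le_weight hs ξ)) with h | ⟨f, g, hfg, hE, h⟩
  · exact Or.inl fun f g hfg hI => h f g hfg ((integrable_weight_iff s hfg.2.1).1 hI)
  · exact Or.inr ⟨f, g, hfg, (integrable_weight_iff s hfg.2.1).2 hE, h⟩

end Vale.Agent.P076.H791
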